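import Mathlib
import Vale.Agent.P264.Soliton.TailDefs

/-! Smoothness of a solution of the shrinker equation. -/

namespace Vale.Agent.P264.Soliton.Tail

open Set
open scoped ContDiff Topology

/-- The third derivative prescribed by the shrinker equation. -/
noncomputable def third (c y z z1 z2 : ℝ) : ℝ :=
  -(17 * z2 + 56 * z1 / y + 56 * (1 - z) / y ^ 2 + (1 / (2 * c) - 1 / (2 * z))) / y

theorem contDiffOn_of_third {c : ℝ} {q q1 q2 : ℝ → ℝ} {S : Set ℝ} (hU : UniqueDiffOn ℝ S)
    (hpos : ∀ y ∈ S, 0 < y) (hq : ∀ y ∈ S, 0 < q y)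
    (h1 : ∀ y ∈ S, HasDerivWithinAt q (q1 y) S y)
    (h2 : ∀ y ∈ S, HasDerivWithinAt q1 (q2 y) S y)
    (h3 : ∀ y ∈ S, HasDerivWithinAt q2 (third c y (q y) (q1 y) (q2 y)) S y) :
    ContDiffOn ℝ ∞ q S := by
  have key : ∀ n : ℕ, ContDiffOn ℝ n q S ∧ ContDiffOn ℝ n q1 S ∧ ContDiffOn ℝ n q2 S := by
    intro n
    induction n with
    | zero =>
      simp only [Nat.cast_zero, contDiffOn_zero]
      exact ⟨fun y hy => (h1 y hy).continuousWithinAt, fun y hy => (h2 y hy).continuousWithinAt,
        fun y hy => (h3 y hy).continuousWithinAt⟩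
    | succ n ih =>
      obtain ⟨i0, i1, i2⟩ := ih
      have succ' : ∀ {f g : ℝ → ℝ}, (∀ y ∈ S, HasDerivWithinAt f (g y) S y) →
          ContDiffOn ℝ n g S → ContDiffOn ℝ ((n + 1 : ℕ) : WithTop ℕ∞) f S := by
        intro f g hd hg
        push_cast
        exact (contDiffOn_succ_iff_derivWithin hU).2
          ⟨fun y hy => (hd y hy).differentiableWithinAt, by simp,
            hg.congr fun y hy => (hd y hy).derivWithin (hU y hy)⟩
      have hid : ContDiffOn ℝ n (fun y : ℝ => y) S := contDiffOn_id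
      have i3 : ContDiffOn ℝ n (fun y => third c y (q y) (q1 y) (q2 y)) S := by
        unfold third
        exact ((((contDiffOn_const.mul i2).add ((contDiffOn_const.mul i1).div hid
          fun y hy => (hpos y hy).ne')).add ((contDiffOn_const.mul (contDiffOn_const.sub i0)).div
            (hid.pow 2) fun y hy => pow_ne_zero _ (hpos y hy).ne')).add
          (contDiffOn_const.sub (contDiffOn_const.div (contDiffOn_const.mul i0)
            fun y hy => mul_ne_zero two_ne_zero (hq y hy).ne'))).neg.div hid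
          fun y hy => (hpos y hy).ne'
      exact ⟨succ' h1 i1, succ' h2 i2, succ' h3 i3⟩
  exact contDiffOn_infty.2 fun n => (key n).1

end Vale.Agent.P264.Soliton.Tail
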