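import Mathlib

/-!
The kernel of `w''' - bet w' + kap w = f` on solutions of polynomial growth: one decaying root
`-rho` and two growing roots `lam`, `conj lam`.
-/

namespace Vale.Agent.P264.Soliton.Tail

open Set MeasureTheory Filter
open scoped Topology

noncomputable def rho : ℝ := 249 / 200
noncomputable def bet : ℝ := 215 / 1024
noncomputable def kap : ℝ := rho ^ 3 - bet * rho
noncomputable def mu : ℝ := rho / 2
noncomputable def om : ℝ := Real.sqrt (3 / 4 * rho ^ 2 - bet)
noncomputable def lam : ℂ := ⟨mu, om⟩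
noncomputable def den : ℂ := 3 * lam ^ 2 - bet
noncomputable def res : ℝ := (3 * rho ^ 2 - bet)⁻¹
noncomputable def cres : ℂ := den⁻¹

theorem rho_pos : 0 < rho := by norm_num [rho]
theorem mu_pos : 0 < mu := by norm_num [mu, rho]

theorem om_sq : om ^ 2 = 3 / 4 * rho ^ 2 - bet :=
  Real.sq_sqrt (by norm_num [rho, bet])

theorem lam_sq_re : (lam ^ 2).re = mu ^ 2 - om ^ 2 := by
  simp [lam, pow_two, Complex.mul_re]

theorem lam_sq_im : (lam ^ 2).im = 2 * mu * om := by
  simp [lam, pow_two, Complex.mul_im]; ring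

theorem lam_cube : lam ^ 3 = bet * lam - kap := by
  have h := om_sq
  apply Complex.ext <;>
    simp [pow_succ, lam, kap, mu, Complex.mul_re, Complex.mul_im] <;>
    [linear_combination (-3 * rho / 2) * h; linear_combination (-om) * h]

theorem den_re : den.re = -(3 / 2) * rho ^ 2 + 2 * bet := by
  simp [den, Complex.mul_re, lam_sq_re, lam_sq_im, mu]
  linear_combination (-3 : ℝ) * om_sq

theorem den_im : den.im = 3 * rho * om := by
  simp [den, Complex.mul_im, lam_sq_re, lam_sq_im, mu]; ring

theorem den_normSq :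
    Complex.normSq den = (3 * rho ^ 2 - bet) * (3 * rho ^ 2 - 4 * bet) := by
  rw [Complex.normSq_apply, den_re, den_im]
  linear_combination (9 * rho ^ 2) * om_sq

theorem den_normSq_pos : 0 < Complex.normSq den := by
  rw [den_normSq]; norm_num [rho, bet]

theorem res_pos : 0 < res := by norm_num [res, rho, bet]

theorem res_le : res ≤ 2253 / 10000 := by norm_num [res, rho, bet]

/-- The residue identities: sum over the three roots of `z ^ k / (3 z ^ 2 - bet)`. -/
theorem residue (k : ℕ) (hk : k ≤ 2) :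
    (-rho) ^ k * res + 2 * (lam ^ k * cres).re = if k = 2 then 1 else 0 := by
  have h1 : (0 : ℝ) < 3 * rho ^ 2 - bet := by norm_num [rho, bet]
  have h2 : (0 : ℝ) < 3 * rho ^ 2 - 4 * bet := by norm_num [rho, bet]
  have h := om_sq
  have hr : cres.re = den.re / Complex.normSq den := Complex.inv_re den
  have hm : cres.im = -den.im / Complex.normSq den := Complex.inv_im den
  rw [den_re, den_normSq] at hr
  rw [den_im, den_normSq] at hm
  have h1' := h1.ne'
  have h2' := h2.ne'
  interval_cases k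
  · simp only [pow_zero, one_mul, hr, res, if_neg (by norm_num : ¬ (0 = 2))]
    generalize hP : 3 * rho ^ 2 - bet = P at *
    generalize hQ : 3 * rho ^ 2 - 4 * bet = Q at *
    field_simp
    linear_combination hQ * (-1 : ℝ)
  · simp only [pow_one, Complex.mul_re, hr, hm, res, lam, mu, if_neg (by norm_num : ¬ (1 = 2))]
    generalize hP : 3 * rho ^ 2 - bet = P at *
    generalize hQ : 3 * rho ^ 2 - 4 * bet = Q at *
    field_simp
    linear_combination (12 * rho) * h + (2 * rho) * hQ
  · simp only [Complex.mul_re, lam_sq_re, lam_sq_im, hr, hm, res, mu, if_pos]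
    generalize hP : 3 * rho ^ 2 - bet = P at *
    generalize hQ : 3 * rho ^ 2 - 4 * bet = Q at *
    field_simp
    linear_combination (36 * rho ^ 2 - 16 * bet) * h + (8 * rho ^ 2 - 4 * bet) * hQ + (4 * Q) * hP

theorem norm_cres : ‖cres‖ ≤ 152 / 625 := by
  have h : ‖den‖ ^ 2 = (3 * rho ^ 2 - bet) * (3 * rho ^ 2 - 4 * bet) := by
    rw [← Complex.normSq_eq_norm_sq, den_normSq]
  have h' : (625 : ℝ) / 152 ≤ ‖den‖ := by
    have : ((625 : ℝ) / 152) ^ 2 ≤ ‖den‖ ^ 2 := by rw [h]; norm_num [rho, bet]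
    exact le_of_pow_le_pow_left₀ two_ne_zero (norm_nonneg _) this
  rw [cres, norm_inv, show (152 : ℝ) / 625 = (625 / 152)⁻¹ by norm_num]
  exact inv_anti₀ (by norm_num) h'

theorem norm_lam : ‖lam‖ ≤ 1158 / 1000 := by
  refine le_of_pow_le_pow_left₀ two_ne_zero (by norm_num) ?_
  rw [← Complex.normSq_eq_norm_sq, Complex.normSq_apply]
  have := om_sq
  simp only [lam, mu, rho, bet] at *
  nlinarith

theorem norm_lam_add : ‖lam + rho‖ ≤ 21073 / 10000 := by
  refine le_of_pow_le_pow_left₀ two_ne_zero (by norm_num) ?_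
  rw [← Complex.normSq_eq_norm_sq, Complex.normSq_apply]
  have := om_sq
  simp [lam, mu, rho, bet] at *
  nlinarith

theorem norm_lam_sq_sub : ‖lam ^ 2 - (rho : ℂ) ^ 2‖ ≤ 244 / 100 := by
  refine le_of_pow_le_pow_left₀ two_ne_zero (by norm_num) ?_
  rw [← Complex.normSq_eq_norm_sq, Complex.normSq_apply]
  have := om_sq
  simp only [Complex.sub_re, Complex.sub_im, lam_sq_re, lam_sq_im, ← Complex.ofReal_pow,
    Complex.ofReal_re, Complex.ofReal_im, mu, rho, bet] at *
  nlinarith

/-- Admissible forcing: continuous, and integrable against the growing modes. -/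
structure Adm (f : ℝ → ℝ) : Prop where
  cont : Continuous f
  integ : IntegrableOn (fun r : ℝ => Complex.exp (-(lam * r)) * (f r : ℂ)) (Ioi 16)

noncomputable def fwd (f : ℝ → ℝ) (s : ℝ) : ℝ :=
  Real.exp (-(rho * s)) * ∫ r in (16 : ℝ)..s, Real.exp (rho * r) * f r

noncomputable def bwd (f : ℝ → ℝ) (s : ℝ) : ℂ :=
  Complex.exp (lam * s) *
    ((∫ r in Ioi (16 : ℝ), Complex.exp (-(lam * r)) * (f r : ℂ))
      - ∫ r in (16 : ℝ)..s, Complex.exp (-(lam * r)) * (f r : ℂ))

/-- `k`-th derivative of the particular solution, without its local term. -/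
noncomputable def part (k : ℕ) (f : ℝ → ℝ) (s : ℝ) : ℝ :=
  (-rho) ^ k * res * fwd f s - 2 * (lam ^ k * cres * bwd f s).re

/-- `k`-th derivative of the solution with value `h` at `16`, without its local term. -/
noncomputable def sol (k : ℕ) (f : ℝ → ℝ) (h s : ℝ) : ℝ :=
  part k f s + (-rho) ^ k * (h - part 0 f 16) * Real.exp (-(rho * (s - 16)))

theorem fwd_deriv {f : ℝ → ℝ} (hf : Continuous f) (s : ℝ) :
    HasDerivAt (fwd f) (-rho * fwd f s + f s) s := by
  have hc : Continuous fun r => Real.exp (rho * r) * f r := by fun_prop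
  have h1 : HasDerivAt (fun t : ℝ => Real.exp (-(rho * t))) (-rho * Real.exp (-(rho * s))) s := by
    simpa [mul_comm] using ((hasDerivAt_id s).const_mul rho).neg.exp
  refine (h1.mul (intervalIntegral.integral_hasDerivAt_right (hc.intervalIntegrable 16 s)
    hc.aestronglyMeasurable.stronglyMeasurableAtFilter hc.continuousAt)).congr_deriv ?_
  simp only [fwd]
  rw [← mul_assoc (Real.exp _) (Real.exp _), ← Real.exp_add]
  simp
  ring

theorem bwd_deriv {f : ℝ → ℝ} (hf : Continuous f) (s : ℝ) :
    HasDerivAt (bwd f) (lam * bwd f s - f s) s := by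
  have hc : Continuous fun r : ℝ => Complex.exp (-(lam * r)) * (f r : ℂ) := by fun_prop
  have h1 : HasDerivAt (fun t : ℝ => Complex.exp (lam * t)) (lam * Complex.exp (lam * s)) s := by
    simpa [mul_comm] using ((Complex.ofRealCLM.hasDerivAt (x := s)).const_mul lam).cexp
  refine (h1.mul ((intervalIntegral.integral_hasDerivAt_right (hc.intervalIntegrable 16 s)
    hc.aestronglyMeasurable.stronglyMeasurableAtFilter hc.continuousAt).const_sub _)).congr_deriv ?_
  have he : Complex.exp (lam * s) * (-(Complex.exp (-(lam * s)) * (f s : ℂ))) = -(f s : ℂ) := by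
    rw [mul_neg, ← mul_assoc, ← Complex.exp_add]; simp
  simp only [bwd]
  rw [he]
  ring

theorem part_deriv {f : ℝ → ℝ} (hf : Continuous f) (k : ℕ) (hk : k ≤ 2) (s : ℝ) :
    HasDerivAt (part k f) (part (k + 1) f s + (if k = 2 then f s else 0)) s := by
  have h1 := (fwd_deriv hf s).const_mul ((-rho) ^ k * res)
  have h2 := ((Complex.reCLM.hasFDerivAt.comp_hasDerivAt s
    ((bwd_deriv hf s).const_mul (lam ^ k * cres))).const_mul (2 : ℝ))
  refine ((h1.sub h2).congr_deriv ?_)
  have hr := residue k hk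
  have e : (if k = 2 then f s else 0) = (if k = 2 then (1 : ℝ) else 0) * f s := by
    split <;> simp
  simp only [part, e, ← hr, Complex.reCLM_apply, pow_succ, mul_sub, Complex.sub_re,
    Complex.re_mul_ofReal]
  rw [show lam ^ k * cres * (lam * bwd f s) = lam ^ k * lam * cres * bwd f s by ring]
  ring

theorem sol_deriv {f : ℝ → ℝ} (hf : Continuous f) (h : ℝ) (k : ℕ) (hk : k ≤ 2) (s : ℝ) :
    HasDerivAt (sol k f h) (sol (k + 1) f h s + (if k = 2 then f s else 0)) s := by
  have h1 : HasDerivAt (fun t : ℝ => Real.exp (-(rho * (t - 16))))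
      (-rho * Real.exp (-(rho * (s - 16)))) s := by
    simpa [mul_comm] using (((hasDerivAt_id s).sub_const 16).const_mul rho).neg.exp
  refine ((part_deriv hf k hk s).add
    (h1.const_mul ((-rho) ^ k * (h - part 0 f 16)))).congr_deriv ?_
  simp only [sol, pow_succ]
  ring

theorem sol_eqn (f : ℝ → ℝ) (h s : ℝ) :
    sol 3 f h s - bet * sol 1 f h s + kap * sol 0 f h s = 0 := by
  have e : lam ^ 3 * cres * bwd f s =
      (bet : ℂ) * (lam * cres * bwd f s) - (kap : ℂ) * (cres * bwd f s) := by
    rw [lam_cube]; ring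
  simp only [sol, part, pow_zero, pow_one, one_mul, e, Complex.sub_re, Complex.re_ofReal_mul, kap]
  ring

theorem sol_init (f : ℝ → ℝ) (h : ℝ) : sol 0 f h 16 = h := by simp [sol]

theorem fwd_init (f : ℝ → ℝ) : fwd f 16 = 0 := by simp [fwd]

theorem sol_one_init (f : ℝ → ℝ) (h : ℝ) :
    sol 1 f h 16 + rho * h = -2 * ((lam + rho) * cres * bwd f 16).re := by
  simp only [sol, part, fwd_init, pow_one, pow_zero, one_mul, mul_zero, zero_sub, sub_self,
    neg_zero, Real.exp_zero, add_mul, Complex.add_re, mul_assoc, Complex.re_ofReal_mul]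
  ring

theorem sol_two_init (f : ℝ → ℝ) (h : ℝ) :
    sol 2 f h 16 - rho ^ 2 * h = -2 * ((lam ^ 2 - (rho : ℂ) ^ 2) * cres * bwd f 16).re := by
  simp only [sol, part, fwd_init, pow_zero, one_mul, mul_zero, zero_sub, sub_self,
    neg_zero, Real.exp_zero, sub_mul, Complex.sub_re, mul_assoc, ← Complex.ofReal_pow,
    Complex.re_ofReal_mul]
  ring

theorem Adm.interval {f : ℝ → ℝ} (hf : Adm f) (s : ℝ) :
    IntervalIntegrable (fun r : ℝ => Complex.exp (-(lam * r)) * (f r : ℂ)) volume 16 s :=
  (by have := hf.cont; fun_prop : Continuous fun r : ℝ =>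
    Complex.exp (-(lam * r)) * (f r : ℂ)).intervalIntegrable 16 s

theorem Adm.sub {f g : ℝ → ℝ} (hf : Adm f) (hg : Adm g) : Adm (fun r => f r - g r) := by
  refine ⟨hf.cont.sub hg.cont, (hf.integ.sub hg.integ).congr_fun (fun r _ => ?_)
    measurableSet_Ioi⟩
  simp [mul_sub]

theorem fwd_sub {f g : ℝ → ℝ} (hf : Continuous f) (hg : Continuous g) (s : ℝ) :
    fwd (fun r => f r - g r) s = fwd f s - fwd g s := by
  have hcf : Continuous fun r => Real.exp (rho * r) * f r := by fun_prop
  have hcg : Continuous fun r => Real.exp (rho * r) * g r := by fun_prop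
  simp only [fwd, mul_sub]
  rw [intervalIntegral.integral_sub (hcf.intervalIntegrable _ _) (hcg.intervalIntegrable _ _)]
  ring

theorem bwd_sub {f g : ℝ → ℝ} (hf : Adm f) (hg : Adm g) (s : ℝ) :
    bwd (fun r => f r - g r) s = bwd f s - bwd g s := by
  simp only [bwd, Complex.ofReal_sub, mul_sub]
  rw [intervalIntegral.integral_sub (hf.interval s) (hg.interval s),
    integral_sub hf.integ hg.integ]
  ring

theorem sol_sub {f g : ℝ → ℝ} (hf : Adm f) (hg : Adm g) (k : ℕ) (h h' s : ℝ) :
    sol k (fun r => f r - g r) (h - h') s = sol k f h s - sol k g h' s := by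
  simp only [sol, part, fwd_sub hf.cont hg.cont, bwd_sub hf hg, mul_sub, Complex.sub_re]
  ring

end Vale.Agent.P264.Soliton.Tail
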