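import Mathlib
import Vale.Agent.P264.Soliton.Tail.Green

/-! Bounds for the tail kernel in the weights `s ^ 2` and `exp (-mu (s - 16))`. -/

namespace Vale.Agent.P264.Soliton.Tail

open Set MeasureTheory Filter
open scoped Topology

theorem norm_phase (r : ℝ) : ‖Complex.exp (-(lam * r))‖ = Real.exp (-(mu * r)) := by
  simp [Complex.norm_exp, lam, Complex.mul_re]

theorem primitive_sq (r : ℝ) :
    HasDerivAt (fun t => -(Real.exp (-(mu * t)) * (t ^ 2 / mu + 2 * t / mu ^ 2 + 2 / mu ^ 3)))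
      (r ^ 2 * Real.exp (-(mu * r))) r := by
  have h1 : HasDerivAt (fun t : ℝ => Real.exp (-(mu * t))) (-mu * Real.exp (-(mu * r))) r := by
    simpa [mul_comm] using ((hasDerivAt_id r).const_mul mu).neg.exp
  have h2 : HasDerivAt (fun t : ℝ => t ^ 2 / mu + 2 * t / mu ^ 2 + 2 / mu ^ 3)
      (2 * r / mu + 2 / mu ^ 2) r := by
    simpa using (((hasDerivAt_pow 2 r).div_const mu).add
      (((hasDerivAt_id r).const_mul (2 : ℝ)).div_const (mu ^ 2))).add_const (2 / mu ^ 3)
  refine (h1.mul h2).neg.congr_deriv ?_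
  have := mu_pos.ne'
  field_simp
  ring

theorem primitive_sq_lim :
    Tendsto (fun t => -(Real.exp (-(mu * t)) * (t ^ 2 / mu + 2 * t / mu ^ 2 + 2 / mu ^ 3)))
      atTop (𝓝 0) := by
  have h : ∀ k : ℕ, Tendsto (fun t : ℝ => t ^ k * Real.exp (-(mu * t))) atTop (𝓝 0) := by
    intro k
    simpa [Real.rpow_natCast, neg_mul] using
      tendsto_rpow_mul_exp_neg_mul_atTop_nhds_zero (k : ℝ) mu mu_pos
  have := ((((h 2).const_mul (1 / mu)).add ((h 1).const_mul (2 / mu ^ 2))).add
    ((h 0).const_mul (2 / mu ^ 3))).neg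
  simp only [mul_zero, add_zero, neg_zero, pow_one, pow_zero, one_mul] at this
  refine this.congr fun t => ?_
  ring

theorem integral_sq {s : ℝ} :
    IntegrableOn (fun r => r ^ 2 * Real.exp (-(mu * r))) (Ioi s) ∧
    ∫ r in Ioi s, r ^ 2 * Real.exp (-(mu * r)) =
      Real.exp (-(mu * s)) * (s ^ 2 / mu + 2 * s / mu ^ 2 + 2 / mu ^ 3) := by
  have h0 : ∀ x ∈ Ioi s, 0 ≤ x ^ 2 * Real.exp (-(mu * x)) := fun x _ => by positivity
  exact ⟨integrableOn_Ioi_deriv_of_nonneg' (fun x _ => primitive_sq x) h0 primitive_sq_lim, by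
    rw [integral_Ioi_of_hasDerivAt_of_nonneg' (fun x _ => primitive_sq x) h0 primitive_sq_lim]
    ring⟩

theorem adm_of_growth {f : ℝ → ℝ} {M : ℝ} (hf : Continuous f)
    (hM : ∀ r, 16 ≤ r → |f r| ≤ M * r ^ 2) : Adm f := by
  have hc : Continuous fun r : ℝ => Complex.exp (-(lam * r)) * (f r : ℂ) := by fun_prop
  refine ⟨hf, Integrable.mono' ((integral_sq (s := 16)).1.const_mul M)
    hc.aestronglyMeasurable.restrict ((ae_restrict_iff' measurableSet_Ioi).2 ?_)⟩
  refine Eventually.of_forall fun r hr => ?_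
  rw [norm_mul, norm_phase, Complex.norm_real, Real.norm_eq_abs]
  calc Real.exp (-(mu * r)) * |f r| ≤ Real.exp (-(mu * r)) * (M * r ^ 2) :=
        mul_le_mul_of_nonneg_left (hM r hr.le) (Real.exp_pos _).le
    _ = M * (r ^ 2 * Real.exp (-(mu * r))) := by ring

theorem norm_bwd_le {f B : ℝ → ℝ} (hf : Adm f) {s : ℝ} (hs : 16 ≤ s)
    (hB : ∀ r, s < r → |f r| ≤ B r)
    (hi : IntegrableOn (fun r => Real.exp (-(mu * r)) * B r) (Ioi s)) :
    ‖bwd f s‖ ≤ Real.exp (mu * s) * ∫ r in Ioi s, Real.exp (-(mu * r)) * B r := by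
  have e : bwd f s = Complex.exp (lam * s) *
      ∫ r in Ioi s, Complex.exp (-(lam * r)) * (f r : ℂ) := by
    rw [bwd, ← intervalIntegral.integral_interval_add_Ioi hf.integ
      (hf.integ.mono_set (Ioi_subset_Ioi hs))]
    ring
  rw [e, norm_mul, show ‖Complex.exp (lam * s)‖ = Real.exp (mu * s) by
    simp [Complex.norm_exp, lam, Complex.mul_re]]
  refine mul_le_mul_of_nonneg_left (norm_integral_le_of_norm_le hi
    ((ae_restrict_iff' measurableSet_Ioi).2 (Eventually.of_forall fun r hr => ?_)))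
    (Real.exp_pos _).le
  rw [norm_mul, norm_phase, Complex.norm_real, Real.norm_eq_abs]
  exact mul_le_mul_of_nonneg_left (hB r hr) (Real.exp_pos _).le

theorem bwd_poly {f : ℝ → ℝ} {M : ℝ} (hf : Adm f) (hM : ∀ r, 16 ≤ r → |f r| ≤ M * r ^ 2)
    {s : ℝ} (hs : 16 ≤ s) : ‖bwd f s‖ ≤ 19614 / 10000 * M * s ^ 2 := by
  have hM0 : 0 ≤ M := by
    have := (abs_nonneg _).trans (hM 16 le_rfl); linarith
  have e : (fun r => Real.exp (-(mu * r)) * (M * r ^ 2)) =
      fun r => M * (r ^ 2 * Real.exp (-(mu * r))) := funext fun r => by ring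
  have h := norm_bwd_le hf hs (B := fun r => M * r ^ 2) (fun r hr => hM r (hs.trans hr.le))
    (by rw [e]; exact integral_sq.1.const_mul M)
  rw [e, integral_const_mul, integral_sq.2] at h
  refine h.trans ?_
  have h1 : Real.exp (mu * s) * Real.exp (-(mu * s)) = 1 := by rw [← Real.exp_add]; simp
  calc Real.exp (mu * s) * (M * (Real.exp (-(mu * s)) * (s ^ 2 / mu + 2 * s / mu ^ 2 + 2 / mu ^ 3)))
      = M * (s ^ 2 / mu + 2 * s / mu ^ 2 + 2 / mu ^ 3) := by
        linear_combination (M * (s ^ 2 / mu + 2 * s / mu ^ 2 + 2 / mu ^ 3)) * h1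
    _ ≤ M * (19614 / 10000 * s ^ 2) := by
        refine mul_le_mul_of_nonneg_left ?_ hM0
        have h16 : 16 * s ≤ s ^ 2 := by nlinarith
        have h256 : (256 : ℝ) ≤ s ^ 2 := by nlinarith
        norm_num [mu, rho]
        linarith
    _ = _ := by ring

theorem fwd_poly {f : ℝ → ℝ} {M : ℝ} (hM : ∀ r, 16 ≤ r → |f r| ≤ M * r ^ 2)
    {s : ℝ} (hs : 16 ≤ s) : |fwd f s| ≤ 200 / 249 * M * s ^ 2 := by
  have hM0 : 0 ≤ M := by
    have := (abs_nonneg _).trans (hM 16 le_rfl); linarith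
  have hd : ∀ r, HasDerivAt (fun t => M * s ^ 2 / rho * Real.exp (rho * t))
      (M * s ^ 2 * Real.exp (rho * r)) r := fun r => by
    refine (((hasDerivAt_id r).const_mul rho).exp.const_mul (M * s ^ 2 / rho)).congr_deriv ?_
    have := rho_pos.ne'
    field_simp
    simp
  have hc : Continuous fun r => M * s ^ 2 * Real.exp (rho * r) := by fun_prop
  have hi : ‖∫ r in (16 : ℝ)..s, Real.exp (rho * r) * f r‖ ≤
      M * s ^ 2 / rho * Real.exp (rho * s) := by
    refine (intervalIntegral.norm_integral_le_of_norm_le hs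
      (Eventually.of_forall fun r hr => ?_) (hc.intervalIntegrable _ _)).trans ?_
    · rw [Real.norm_eq_abs, abs_mul, Real.abs_exp, mul_comm]
      have hr' : M * r ^ 2 ≤ M * s ^ 2 :=
        mul_le_mul_of_nonneg_left (pow_le_pow_left₀ (by linarith [hr.1]) hr.2 2) hM0
      exact mul_le_mul_of_nonneg_right ((hM r hr.1.le).trans hr') (Real.exp_pos _).le
    · rw [intervalIntegral.integral_eq_sub_of_hasDerivAt (fun r _ => hd r)
        (hc.intervalIntegrable _ _)]
      have : 0 ≤ M * s ^ 2 / rho * Real.exp (rho * 16) := by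
        have := rho_pos; positivity
      linarith
  rw [Real.norm_eq_abs] at hi
  rw [fwd, abs_mul, Real.abs_exp]
  refine (mul_le_mul_of_nonneg_left hi (Real.exp_pos _).le).trans (le_of_eq ?_)
  have h1 : Real.exp (-(rho * s)) * Real.exp (rho * s) = 1 := by rw [← Real.exp_add]; simp
  calc Real.exp (-(rho * s)) * (M * s ^ 2 / rho * Real.exp (rho * s)) = M * s ^ 2 / rho := by
        linear_combination (M * s ^ 2 / rho) * h1
    _ = _ := by norm_num [rho]; ring

theorem fwd_exp {f : ℝ → ℝ} {M : ℝ}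
    (hM : ∀ r, 16 ≤ r → |f r| ≤ M * Real.exp (-(mu * (r - 16)))) {s : ℝ} (hs : 16 ≤ s) :
    |fwd f s| ≤ 400 / 249 * M * Real.exp (-(mu * (s - 16))) := by
  have hM0 : 0 ≤ M := by
    have := (abs_nonneg _).trans (hM 16 le_rfl); simpa using this
  have hd : ∀ r, HasDerivAt (fun t => M / mu * Real.exp (mu * t + 16 * mu))
      (M * Real.exp (mu * r + 16 * mu)) r := fun r => by
    refine ((((hasDerivAt_id r).const_mul mu).add_const (16 * mu)).exp.const_mul
      (M / mu)).congr_deriv ?_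
    have := mu_pos.ne'
    field_simp
    simp
  have hc : Continuous fun r => M * Real.exp (mu * r + 16 * mu) := by fun_prop
  have hi : ‖∫ r in (16 : ℝ)..s, Real.exp (rho * r) * f r‖ ≤
      M / mu * Real.exp (mu * s + 16 * mu) := by
    refine (intervalIntegral.norm_integral_le_of_norm_le hs
      (Eventually.of_forall fun r hr => ?_) (hc.intervalIntegrable _ _)).trans ?_
    · rw [Real.norm_eq_abs, abs_mul, Real.abs_exp]
      refine (mul_le_mul_of_nonneg_left (hM r hr.1.le) (Real.exp_pos _).le).trans (le_of_eq ?_)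
      rw [mul_left_comm, ← Real.exp_add]
      congr 2
      simp only [mu]; ring
    · rw [intervalIntegral.integral_eq_sub_of_hasDerivAt (fun r _ => hd r)
        (hc.intervalIntegrable _ _)]
      have : 0 ≤ M / mu * Real.exp (mu * 16 + 16 * mu) := by
        have := mu_pos; positivity
      linarith
  rw [Real.norm_eq_abs] at hi
  rw [fwd, abs_mul, Real.abs_exp]
  refine (mul_le_mul_of_nonneg_left hi (Real.exp_pos _).le).trans (le_of_eq ?_)
  rw [mul_left_comm, ← Real.exp_add, show -(rho * s) + (mu * s + 16 * mu) = -(mu * (s - 16)) by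
    simp only [mu]; ring]
  norm_num [mu, rho]
  ring

theorem bwd_exp {f : ℝ → ℝ} {M : ℝ} (hf : Adm f)
    (hM : ∀ r, 16 ≤ r → |f r| ≤ M * Real.exp (-(mu * (r - 16)))) {s : ℝ} (hs : 16 ≤ s) :
    ‖bwd f s‖ ≤ 200 / 249 * M * Real.exp (-(mu * (s - 16))) := by
  have hd : ∀ r ∈ Ici s, HasDerivAt (fun t => -(1 / (2 * mu)) * Real.exp (-(2 * mu * t) + 16 * mu))
      (Real.exp (-(2 * mu * r) + 16 * mu)) r := fun r _ => by
    refine ((((hasDerivAt_id r).const_mul (2 * mu)).neg.add_const (16 * mu)).exp.const_mul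
      (-(1 / (2 * mu)))).congr_deriv ?_
    have := mu_pos.ne'
    field_simp
    simp
    ring
  have h0 : ∀ r ∈ Ioi s, 0 ≤ Real.exp (-(2 * mu * r) + 16 * mu) := fun r _ => (Real.exp_pos _).le
  have hl : Tendsto (fun t => -(1 / (2 * mu)) * Real.exp (-(2 * mu * t) + 16 * mu)) atTop (𝓝 0) := by
    have := (Real.tendsto_exp_atBot.comp (tendsto_atBot_add_const_right atTop (16 * mu)
      (tendsto_neg_atTop_atBot.comp ((tendsto_const_mul_atTop_of_pos
        (show (0 : ℝ) < 2 * mu by linarith [mu_pos])).2 tendsto_id)))).const_mul (-(1 / (2 * mu)))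
    rw [mul_zero] at this
    exact this
  have e : (fun r => Real.exp (-(mu * r)) * (M * Real.exp (-(mu * (r - 16))))) =
      fun r => M * Real.exp (-(2 * mu * r) + 16 * mu) := funext fun r => by
    rw [mul_left_comm, ← Real.exp_add]; ring_nf
  have h := norm_bwd_le hf hs (B := fun r => M * Real.exp (-(mu * (r - 16))))
    (fun r hr => hM r (hs.trans hr.le))
    (by rw [e]; exact (integrableOn_Ioi_deriv_of_nonneg' hd h0 hl).const_mul M)
  rw [e, integral_const_mul, integral_Ioi_of_hasDerivAt_of_nonneg' hd h0 hl] at h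
  refine h.trans (le_of_eq ?_)
  rw [zero_sub, ← neg_mul, neg_neg, mul_left_comm, mul_left_comm (Real.exp _) (1 / (2 * mu)),
    ← Real.exp_add, show mu * s + (-(2 * mu * s) + 16 * mu) = -(mu * (s - 16)) by ring]
  norm_num [mu, rho]
  ring

theorem abs_part_le (k : ℕ) (f : ℝ → ℝ) (s : ℝ) :
    |part k f s| ≤ rho ^ k * (2253 / 10000) * |fwd f s| +
      2 * ((1158 / 1000) ^ k * (152 / 625) * ‖bwd f s‖) := by
  refine (abs_sub _ _).trans (add_le_add ?_ ?_)
  · rw [abs_mul, abs_mul, abs_pow, abs_neg, abs_of_pos rho_pos, abs_of_pos res_pos]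
    exact mul_le_mul_of_nonneg_right (mul_le_mul_of_nonneg_left res_le
      (pow_nonneg rho_pos.le k)) (abs_nonneg _)
  · rw [abs_mul, abs_two]
    refine mul_le_mul_of_nonneg_left ((Complex.abs_re_le_norm _).trans ?_) two_pos.le
    rw [norm_mul, norm_mul, norm_pow]
    exact mul_le_mul_of_nonneg_right (mul_le_mul (pow_le_pow_left₀ (norm_nonneg _) norm_lam k)
      norm_cres (norm_nonneg _) (by positivity)) (norm_nonneg _)

theorem abs_sol_le (k : ℕ) (f : ℝ → ℝ) (h s : ℝ) :
    |sol k f h s| ≤ |part k f s| +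
      rho ^ k * (|h| + |part 0 f 16|) * Real.exp (-(rho * (s - 16))) := by
  refine (abs_add_le _ _).trans (add_le_add le_rfl ?_)
  rw [abs_mul, abs_mul, abs_pow, abs_neg, abs_of_pos rho_pos, Real.abs_exp]
  exact mul_le_mul_of_nonneg_right (mul_le_mul_of_nonneg_left (abs_sub _ _)
    (pow_nonneg rho_pos.le k)) (Real.exp_pos _).le

theorem abs_part_init (f : ℝ → ℝ) : |part 0 f 16| ≤ 304 / 625 * ‖bwd f 16‖ := by
  refine (abs_part_le 0 f 16).trans (le_of_eq ?_)
  simp [fwd_init]; ring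

theorem sol_poly {f : ℝ → ℝ} {M : ℝ} (hf : Adm f) (hM : ∀ r, 16 ≤ r → |f r| ≤ M * r ^ 2)
    (h : ℝ) {s : ℝ} (hs : 16 ≤ s) :
    |sol 0 f h s| ≤ 209 / 100 * M * s ^ 2 + |h| ∧
    |sol 1 f h s| ≤ 252 / 100 * M * s ^ 2 + 249 / 200 * |h| ∧
    |sol 2 f h s| ≤ 4 * M * s ^ 2 + 2 * |h| := by
  have hM0 : 0 ≤ M := by
    have := (abs_nonneg _).trans (hM 16 le_rfl); linarith
  have hI := bwd_poly hf hM hs
  have hI0 := (bwd_poly hf hM (le_refl (16 : ℝ)))
  have hA := fwd_poly hM hs
  have hP := abs_part_init f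
  have hsq : M * (16 : ℝ) ^ 2 ≤ M * s ^ 2 :=
    mul_le_mul_of_nonneg_left (pow_le_pow_left₀ (by norm_num) hs 2) hM0
  have hE : Real.exp (-(rho * (s - 16))) ≤ 1 :=
    Real.exp_le_one_iff.2 (by have := rho_pos; nlinarith)
  have hX : (|h| + |part 0 f 16|) * Real.exp (-(rho * (s - 16))) ≤ |h| + |part 0 f 16| :=
    mul_le_of_le_one_right (by positivity) hE
  have hp : 0 ≤ M * s ^ 2 := by positivity
  have hh := abs_nonneg h
  refine ⟨?_, ?_, ?_⟩
  · have h1 := abs_sol_le 0 f h s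
    have h2 := abs_part_le 0 f s
    simp only [rho, pow_zero, one_mul] at *
    linarith
  · have h1 := abs_sol_le 1 f h s
    have h2 := abs_part_le 1 f s
    simp only [rho, pow_one] at *
    linarith
  · have h1 := abs_sol_le 2 f h s
    have h2 := abs_part_le 2 f s
    norm_num [rho] at *
    linarith [abs_nonneg h]

theorem sol_exp {f : ℝ → ℝ} {M : ℝ} (hf : Adm f)
    (hM : ∀ r, 16 ≤ r → |f r| ≤ M * Real.exp (-(mu * (r - 16)))) (h : ℝ) {s : ℝ} (hs : 16 ≤ s) :
    |sol 0 f h s| ≤ (1144 / 1000 * M + |h|) * Real.exp (-(mu * (s - 16))) ∧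
    |sol 1 f h s| ≤ (139 / 100 * M + 249 / 200 * |h|) * Real.exp (-(mu * (s - 16))) := by
  have hM0 : 0 ≤ M := by
    have := (abs_nonneg _).trans (hM 16 le_rfl); simpa using this
  have hI := bwd_exp hf hM hs
  have hI0 := (bwd_exp hf hM (le_refl (16 : ℝ)))
  rw [show -(mu * ((16 : ℝ) - 16)) = 0 by ring, Real.exp_zero, mul_one] at hI0
  have hA := fwd_exp hM hs
  have hP := abs_part_init f
  have hE : Real.exp (-(rho * (s - 16))) ≤ Real.exp (-(mu * (s - 16))) :=
    Real.exp_le_exp.2 (by have := rho_pos; simp only [mu]; nlinarith)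
  set E := Real.exp (-(mu * (s - 16))) with hEdef
  have hEp : 0 < E := Real.exp_pos _
  have hX : (|h| + |part 0 f 16|) * Real.exp (-(rho * (s - 16))) ≤
      (|h| + 304 / 625 * (200 / 249 * M)) * E :=
    mul_le_mul (by linarith) hE (Real.exp_pos _).le (by positivity)
  have hp : 0 ≤ M * E := by positivity
  have hh : 0 ≤ |h| * E := by positivity
  refine ⟨?_, ?_⟩
  · have h1 := abs_sol_le 0 f h s
    have h2 := abs_part_le 0 f s
    simp only [pow_zero, one_mul] at *
    linarith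
  · have h1 := abs_sol_le 1 f h s
    have h2 := abs_part_le 1 f s
    simp only [rho, pow_one] at *
    linarith

end Vale.Agent.P264.Soliton.Tail
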