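import Mathlib
import Vale.Agent.P264.Soliton.TailDefs
import Vale.Agent.P264.Soliton.Tail.Bounds

/-! The forcing of the tail equation in the variable `s = y ^ (2/3)`, and its estimates. -/

namespace Vale.Agent.P264.Soliton.Tail

open Set

/-- `tailPoly` written in `s`. -/
noncomputable def polyS (c s : ℝ) : ℝ :=
  coef1 c / s ^ 3 + coef2 c / s ^ 6 + coef3 c / s ^ 9 + coef4 c / s ^ 12

noncomputable def clip (u : ℝ) : ℝ := max (-(1 / 1000)) (min (1 / 1000) u)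

noncomputable def nonlin (c u : ℝ) : ℝ := clip u ^ 2 / (2 * c ^ 2 * (c + clip u))

/-- Right hand side of `w''' - bet w' + kap w = ..`. -/
noncomputable def rhs (c w0 w1 s : ℝ) : ℝ :=
  (215 / (4 * s ^ 2) - bet) * w1 + (kap + 95 / s ^ 3 - 27 / (16 * c ^ 2)) * w0
    + 27 / 8 * s ^ 8 * nonlin c (polyS c s + w0 / s ^ 8)

theorem abs_clip_le (u : ℝ) : |clip u| ≤ 1 / 1000 := by
  rw [abs_le, clip]
  exact ⟨le_max_left _ _, max_le (by norm_num) (min_le_left _ _)⟩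

theorem clip_zero : clip 0 = 0 := by norm_num [clip]

theorem clip_lip (u v : ℝ) : |clip u - clip v| ≤ |u - v| := by
  refine (abs_max_sub_max_le_max _ _ _ _).trans ?_
  rw [sub_self, abs_zero, max_eq_right (abs_nonneg _)]
  refine (abs_min_sub_min_le_max _ _ _ _).trans ?_
  rw [sub_self, abs_zero, max_eq_right (abs_nonneg _)]

theorem abs_clip_le_self (u : ℝ) : |clip u| ≤ |u| := by
  simpa [clip_zero] using clip_lip u 0

theorem clip_eq {u : ℝ} (h : |u| ≤ 1 / 1000) : clip u = u := by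
  rw [abs_le] at h
  rw [clip, min_eq_right h.2, max_eq_right h.1]

theorem clip_add_pos {c : ℝ} (hc : c ∈ cSet) (u : ℝ) : 997 / 1000 ≤ c + clip u := by
  have h1 := abs_le.1 (abs_clip_le u)
  linarith [hc.1]

theorem den_pos {c : ℝ} (hc : c ∈ cSet) (u : ℝ) : 99 / 100 ≤ c ^ 2 * (c + clip u) := by
  have h := clip_add_pos hc u
  have h2 : (998 / 1000 : ℝ) ^ 2 ≤ c ^ 2 := pow_le_pow_left₀ (by norm_num) hc.1 2
  nlinarith

theorem abs_nonlin_le {c : ℝ} (hc : c ∈ cSet) (u : ℝ) :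
    |nonlin c u| ≤ 506 / 1000 * clip u ^ 2 := by
  have hd := den_pos hc u
  have h' : 0 < 2 * c ^ 2 * (c + clip u) := by linarith
  rw [nonlin, abs_div, abs_of_pos h', abs_of_nonneg (sq_nonneg _), div_le_iff₀ h']
  nlinarith [sq_nonneg (clip u)]

theorem nonlin_lip {c : ℝ} (hc : c ∈ cSet) (u v : ℝ) :
    |nonlin c u - nonlin c v| ≤ 51 / 100 * (|clip u| + |clip v|) * |u - v| := by
  set p := clip u
  set q := clip v
  have hp : |p| ≤ 1 / 1000 := abs_clip_le u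
  have hq : |q| ≤ 1 / 1000 := abs_clip_le v
  have hcp : 997 / 1000 ≤ c + p := clip_add_pos hc u
  have hcq : 997 / 1000 ≤ c + q := clip_add_pos hc v
  have hc0 : 0 < c := by linarith [hc.1]
  have e : nonlin c u - nonlin c v =
      (p - q) * ((c * (p + q) + p * q) / (2 * c ^ 2 * ((c + p) * (c + q)))) := by
    show p ^ 2 / (2 * c ^ 2 * (c + p)) - q ^ 2 / (2 * c ^ 2 * (c + q)) = _
    have : c + p ≠ 0 := by linarith
    have : c + q ≠ 0 := by linarith
    field_simp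
    ring
  have hD : 197 / 100 ≤ 2 * c ^ 2 * ((c + p) * (c + q)) := by
    have h2 : (998 / 1000 : ℝ) ^ 2 ≤ c ^ 2 := pow_le_pow_left₀ (by norm_num) hc.1 2
    have h3 : (997 / 1000 : ℝ) * (997 / 1000) ≤ (c + p) * (c + q) :=
      mul_le_mul hcp hcq (by norm_num) (by linarith)
    nlinarith
  have hN : |c * (p + q) + p * q| ≤ (1000 / 999) * (|p| + |q|) := by
    refine (abs_add_le _ _).trans ?_
    rw [abs_mul, abs_mul, abs_of_pos hc0]
    have h1 : c * |p + q| ≤ 1 * (|p| + |q|) :=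
      mul_le_mul (by linarith [hc.2]) (abs_add_le _ _) (abs_nonneg _) zero_le_one
    have h2 : |p| * |q| ≤ 1 / 1000 * |q| := mul_le_mul_of_nonneg_right hp (abs_nonneg _)
    nlinarith [abs_nonneg p, abs_nonneg q]
  rw [e, abs_mul, mul_comm |p - q|]
  refine mul_le_mul ?_ (clip_lip u v) (abs_nonneg _) (by positivity)
  rw [abs_div, abs_of_pos (show (0:ℝ) < 2 * c ^ 2 * ((c + p) * (c + q)) by linarith),
    div_le_iff₀ (by linarith)]
  nlinarith [abs_nonneg p, abs_nonneg q]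

theorem nonlin_param {c c' : ℝ} (hc : c ∈ cSet) (hc' : c' ∈ cSet) (u : ℝ) :
    |nonlin c u - nonlin c' u| ≤ 2 * clip u ^ 2 * |c - c'| := by
  set p := clip u
  have hp := abs_le.1 (abs_clip_le u)
  have hd := den_pos hc u
  have hd' := den_pos hc' u
  have hD : 0 < 2 * (c ^ 2 * (c + p)) * (c' ^ 2 * (c' + p)) := by
    have : 0 < c' ^ 2 * (c' + p) := by linarith
    have : 0 < c ^ 2 * (c + p) := by linarith
    positivity
  have e : nonlin c u - nonlin c' u = p ^ 2 * (c' - c) *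
      ((c' ^ 2 + c * c' + c ^ 2 + p * (c + c')) / (2 * (c ^ 2 * (c + p)) * (c' ^ 2 * (c' + p)))) := by
    show p ^ 2 / (2 * c ^ 2 * (c + p)) - p ^ 2 / (2 * c' ^ 2 * (c' + p)) = _
    have : c + p ≠ 0 := by linarith [hc.1]
    have : c' + p ≠ 0 := by linarith [hc'.1]
    have : c ≠ 0 := by linarith [hc.1]
    have : c' ≠ 0 := by linarith [hc'.1]
    field_simp
    ring
  have hN : |c' ^ 2 + c * c' + c ^ 2 + p * (c + c')| ≤ 31 / 10 := by
    rw [abs_le]
    constructor <;> nlinarith [hc.1, hc.2, hc'.1, hc'.2]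
  rw [e, abs_mul, abs_mul, abs_of_nonneg (sq_nonneg p), abs_sub_comm c' c, abs_div, abs_of_pos hD]
  have h2 : |c' ^ 2 + c * c' + c ^ 2 + p * (c + c')| /
      (2 * (c ^ 2 * (c + p)) * (c' ^ 2 * (c' + p))) ≤ 2 := by
    rw [div_le_iff₀ hD]
    nlinarith [mul_le_mul hd hd' (by norm_num) (by linarith : (0:ℝ) ≤ c ^ 2 * (c + p))]
  calc p ^ 2 * |c - c'| * _ ≤ p ^ 2 * |c - c'| * 2 :=
        mul_le_mul_of_nonneg_left h2 (by positivity)
    _ = _ := by ring

theorem inv_pow_le {s : ℝ} (hs : 16 ≤ s) (k : ℕ) : 1 / s ^ k ≤ 1 / (16 : ℝ) ^ k := by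
  exact div_le_div_of_nonneg_left zero_le_one (by positivity) (pow_le_pow_left₀ (by norm_num) hs k)

theorem bet_coef {s : ℝ} (hs : 16 ≤ s) :
    |215 / (4 * s ^ 2) - bet| ≤ bet ∧ |215 / (4 * s ^ 2) - bet| ≤ bet * (s - 16) / 8 := by
  have e : 215 / (4 * s ^ 2) - bet = -(bet * ((s - 16) * ((s + 16) / s ^ 2))) := by
    have : s ≠ 0 := by linarith
    simp only [bet]
    field_simp
    ring
  have h1 : 0 ≤ (s + 16) / s ^ 2 := by positivity
  have h2 : (s + 16) / s ^ 2 ≤ 1 / 8 := by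
    rw [div_le_iff₀ (by positivity)]; nlinarith
  have h0 : 0 ≤ (s - 16) * ((s + 16) / s ^ 2) := mul_nonneg (by linarith) h1
  have hb : 0 < bet := by norm_num [bet]
  have h3 : (s - 16) * ((s + 16) / s ^ 2) ≤ 1 := by
    rw [← mul_div_assoc, div_le_iff₀ (by positivity)]; nlinarith
  rw [e, abs_neg, abs_of_nonneg (mul_nonneg hb.le h0)]
  refine ⟨mul_le_of_le_one_right hb.le h3, ?_⟩
  rw [mul_div_assoc]
  exact mul_le_mul_of_nonneg_left (by nlinarith) hb.le

theorem inv_sq_range {c : ℝ} (hc : c ∈ cSet) :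
    168918 / 100000 ≤ 27 / (16 * c ^ 2) ∧ 27 / (16 * c ^ 2) ≤ 169428 / 100000 := by
  have h1 : (998 / 1000 : ℝ) ^ 2 ≤ c ^ 2 := pow_le_pow_left₀ (by norm_num) hc.1 2
  have h2 : c ^ 2 ≤ (9995 / 10000 : ℝ) ^ 2 := pow_le_pow_left₀ (by linarith [hc.1]) hc.2 2
  have hp : 0 < 16 * c ^ 2 := by nlinarith
  constructor
  · rw [le_div_iff₀ hp]; nlinarith
  · rw [div_le_iff₀ hp]; nlinarith

theorem kap_coef {c s : ℝ} (hc : c ∈ cSet) (hs : 16 ≤ s) :
    |kap + 95 / s ^ 3 - 27 / (16 * c ^ 2)| ≤ 26 / 1000 ∧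
    |kap + 95 / s ^ 3 - 27 / (16 * c ^ 2)| ≤ 28 / 10000 + 435 / 100000 * (s - 16) := by
  obtain ⟨hlo, hhi⟩ := inv_sq_range hc
  have h3 := inv_pow_le hs 3
  have h0 : 0 < 1 / s ^ 3 := by positivity
  have e : 95 / s ^ 3 = 95 * (1 / s ^ 3) := by ring
  have ht : 1 / (16 : ℝ) ^ 3 - 1 / s ^ 3 ≤ 3 / 16 * (1 / 16 ^ 3) * (s - 16) := by
    have hx : 1 - 3 / 16 * (s - 16) ≤ 4096 * (1 / s ^ 3) := by
      rw [mul_one_div, le_div_iff₀ (by positivity)]
      nlinarith [mul_nonneg (mul_nonneg (sub_nonneg.2 hs) (sub_nonneg.2 hs)) (sub_nonneg.2 hs),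
        mul_nonneg (sub_nonneg.2 hs) (sub_nonneg.2 hs),
        mul_nonneg (mul_nonneg (sub_nonneg.2 hs) (sub_nonneg.2 hs))
          (mul_nonneg (sub_nonneg.2 hs) (sub_nonneg.2 hs))]
    norm_num at hx ⊢
    linarith
  norm_num at h3 ht
  rw [div_eq_mul_inv (95 : ℝ) (s ^ 3)]
  have h0' : 0 < (s ^ 3)⁻¹ := by positivity
  constructor <;> rw [abs_le] <;> constructor <;> simp only [kap, rho, bet] <;> linarith

theorem coef_bounds {c : ℝ} (hc : c ∈ cSet) :
    |coef1 c| ≤ 224 / 1000 ∧ |coef2 c| ≤ 404 / 10 ∧ |coef3 c| ≤ 4850 ∧ |coef4 c| ≤ 136000 := by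
  have hc2 : |c ^ 2| ≤ 1 := by rw [abs_of_nonneg (sq_nonneg c)]; nlinarith [hc.1, hc.2]
  have h1 : |coef1 c| ≤ 224 / 1000 := by
    rw [coef1, abs_mul, abs_mul, abs_of_nonneg (by linarith [hc.2] : 0 ≤ 1 - c)]
    norm_num
    nlinarith [hc.1, hc.2, sq_nonneg c]
  have step : ∀ (k x B : ℝ), 0 ≤ k → |x| ≤ B → |k * c ^ 2 * x| ≤ k * B := fun k x B hk hx => by
    rw [abs_mul, abs_mul, abs_of_nonneg hk]
    exact mul_le_mul (mul_le_of_le_one_right hk hc2) hx (abs_nonneg _) hk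
  have h2 : |coef2 c| ≤ 404 / 10 := (step 180 _ _ (by norm_num) h1).trans (by norm_num)
  have h3 : |coef3 c| ≤ 4850 := (step 120 _ _ (by norm_num) h2).trans (by norm_num)
  exact ⟨h1, h2, h3, (step 28 _ _ (by norm_num) h3).trans (by norm_num)⟩

theorem polyS_bound {c s : ℝ} (hc : c ∈ cSet) (hs : 16 ≤ s) :
    |polyS c s| ≤ 235 / 1000 / s ^ 3 := by
  obtain ⟨h1, h2, h3, h4⟩ := coef_bounds hc
  have hp : 0 < s := by linarith
  have e : polyS c s = (coef1 c + coef2 c * (1 / s ^ 3) + coef3 c * (1 / s ^ 6)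
      + coef4 c * (1 / s ^ 9)) / s ^ 3 := by
    simp only [polyS]
    field_simp
  rw [e, abs_div, abs_of_pos (pow_pos hp 3)]
  refine div_le_div_of_nonneg_right ?_ (by positivity)
  have m : ∀ (x B : ℝ) (k : ℕ), |x| ≤ B → |x * (1 / s ^ k)| ≤ B * (1 / 16 ^ k) := fun x B k hx => by
    rw [abs_mul, abs_of_nonneg (by positivity : 0 ≤ 1 / s ^ k)]
    exact mul_le_mul hx (inv_pow_le hs k) (by positivity) ((abs_nonneg x).trans hx)
  have a2 := m _ _ 3 h2
  have a3 := m _ _ 6 h3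
  have a4 := m _ _ 9 h4
  norm_num at a2 a3 a4
  refine (abs_add_le _ _).trans ?_
  have := abs_add_three (coef1 c) (coef2 c * (1 / s ^ 3)) (coef3 c * (1 / s ^ 6))
  norm_num at *
  linarith

theorem coef_lip {c c' : ℝ} (hc : c ∈ cSet) (hc' : c' ∈ cSet) :
    |coef1 c - coef1 c'| ≤ 114 * |c - c'| ∧ |coef2 c - coef2 c'| ≤ 20610 * |c - c'| ∧
    |coef3 c - coef3 c'| ≤ 2484000 * |c - c'| ∧ |coef4 c - coef4 c'| ≤ 70000000 * |c - c'| := by
  obtain ⟨b1, b2, b3, -⟩ := coef_bounds hc'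
  have h1 : |coef1 c - coef1 c'| ≤ 114 * |c - c'| := by
    rw [show coef1 c - coef1 c' =
      (c - c') * (112 * ((c ^ 2 + c * c' + c' ^ 2) - (c + c'))) by simp only [coef1]; ring,
      abs_mul, mul_comm]
    refine mul_le_mul_of_nonneg_right ?_ (abs_nonneg _)
    rw [abs_le]
    constructor <;> nlinarith [hc.1, hc.2, hc'.1, hc'.2]
  have step : ∀ (k x x' A B : ℝ), 0 ≤ k → |x - x'| ≤ A * |c - c'| → |x'| ≤ B →
      |k * c ^ 2 * x - k * c' ^ 2 * x'| ≤ k * (A + 2 * B) * |c - c'| := by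
    intro k x x' A B hk hA hB
    rw [show k * c ^ 2 * x - k * c' ^ 2 * x' = k * (c ^ 2 * (x - x') + (c + c') * (c - c') * x') by
      ring, abs_mul, abs_of_nonneg hk, mul_assoc k (A + 2 * B)]
    refine mul_le_mul_of_nonneg_left ((abs_add_le _ _).trans ?_) hk
    rw [abs_mul, abs_mul, abs_mul, add_mul]
    refine add_le_add ?_ ?_
    · exact (mul_le_of_le_one_left (abs_nonneg _)
        (by rw [abs_of_nonneg (sq_nonneg c)]; nlinarith [hc.1, hc.2])).trans hA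
    · calc |c + c'| * |c - c'| * |x'| ≤ 2 * |c - c'| * B := by
            refine mul_le_mul (mul_le_mul_of_nonneg_right ?_ (abs_nonneg _)) hB (abs_nonneg _)
              (by positivity)
            rw [abs_le]; constructor <;> linarith [hc.1, hc.2, hc'.1, hc'.2]
        _ = 2 * B * |c - c'| := by ring
  have hd := abs_nonneg (c - c')
  have h2 : |coef2 c - coef2 c'| ≤ 20610 * |c - c'| :=
    (step 180 _ _ _ _ (by norm_num) h1 b1).trans (by linarith)
  have h3 : |coef3 c - coef3 c'| ≤ 2484000 * |c - c'| :=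
    (step 120 _ _ _ _ (by norm_num) h2 b2).trans (by linarith)
  exact ⟨h1, h2, h3, (step 28 _ _ _ _ (by norm_num) h3 b3).trans (by linarith)⟩

theorem polyS_lip {c c' s : ℝ} (hc : c ∈ cSet) (hc' : c' ∈ cSet) (hs : 16 ≤ s) :
    |polyS c s - polyS c' s| ≤ 120 * |c - c'| / s ^ 3 := by
  obtain ⟨h1, h2, h3, h4⟩ := coef_lip hc hc'
  have hp : 0 < s := by linarith
  have e : polyS c s - polyS c' s = ((coef1 c - coef1 c') + (coef2 c - coef2 c') * (1 / s ^ 3) +
      (coef3 c - coef3 c') * (1 / s ^ 6) + (coef4 c - coef4 c') * (1 / s ^ 9)) / s ^ 3 := by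
    simp only [polyS]
    field_simp
    ring
  rw [e, abs_div, abs_of_pos (pow_pos hp 3)]
  refine div_le_div_of_nonneg_right ?_ (by positivity)
  have m : ∀ (x B : ℝ) (k : ℕ), |x| ≤ B → |x * (1 / s ^ k)| ≤ B * (1 / 16 ^ k) := fun x B k hx => by
    rw [abs_mul, abs_of_nonneg (by positivity : 0 ≤ 1 / s ^ k)]
    exact mul_le_mul hx (inv_pow_le hs k) (by positivity) ((abs_nonneg x).trans hx)
  have a2 := m _ _ 3 h2
  have a3 := m _ _ 6 h3
  have a4 := m _ _ 9 h4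
  refine (abs_add_le _ _).trans ?_
  have := abs_add_three (coef1 c - coef1 c') ((coef2 c - coef2 c') * (1 / s ^ 3))
    ((coef3 c - coef3 c') * (1 / s ^ 6))
  have hd := abs_nonneg (c - c')
  norm_num at *
  linarith [abs_nonneg (c - c')]

/-- `|u| s ^ 3` for the argument of the nonlinearity. -/
theorem arg_bound {c s w0 W : ℝ} (hc : c ∈ cSet) (hs : 16 ≤ s) (hw : |w0| ≤ W * s ^ 2) :
    |clip (polyS c s + w0 / s ^ 8)| ≤ (235 / 1000 + W / 4096) / s ^ 3 := by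
  have hp : 0 < s := by linarith
  refine (abs_clip_le_self _).trans ((abs_add_le _ _).trans ?_)
  rw [add_div]
  refine add_le_add (polyS_bound hc hs) ?_
  have hW : 0 ≤ W := by nlinarith [abs_nonneg w0, pow_pos hp 2]
  rw [abs_div, abs_of_pos (pow_pos hp 8), div_le_iff₀ (pow_pos hp 8)]
  refine hw.trans ?_
  rw [div_mul_eq_mul_div, div_mul_eq_mul_div, le_div_iff₀ (pow_pos hp 3),
    show W * s ^ 2 * s ^ 3 = W * s ^ 5 by ring,
    show W * s ^ 8 / 4096 = W * s ^ 5 * (s ^ 3 / 4096) by ring]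
  refine le_mul_of_one_le_right (by positivity) ?_
  rw [le_div_iff₀ (by norm_num)]
  nlinarith [pow_le_pow_left₀ (by norm_num : (0:ℝ) ≤ 16) hs 3]

/-- Lipschitz bound in the solution. -/
theorem rhs_sub_le {c s x x' z z' : ℝ} (hc : c ∈ cSet) (hs : 16 ≤ s) :
    |rhs c x z s - rhs c x' z' s| ≤ |(215 / (4 * s ^ 2) - bet) * (z - z') +
      (kap + 95 / s ^ 3 - 27 / (16 * c ^ 2)) * (x - x')| + 345 / 100000 * |x - x'| := by
  have hp : 0 < s := by linarith
  rw [show rhs c x z s - rhs c x' z' s = ((215 / (4 * s ^ 2) - bet) * (z - z') +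
      (kap + 95 / s ^ 3 - 27 / (16 * c ^ 2)) * (x - x')) + 27 / 8 * s ^ 8 *
      (nonlin c (polyS c s + x / s ^ 8) - nonlin c (polyS c s + x' / s ^ 8)) by
    simp only [rhs]; ring]
  refine (abs_add_le _ _).trans (add_le_add le_rfl ?_)
  rw [abs_mul, abs_of_pos (by positivity : (0:ℝ) < 27 / 8 * s ^ 8)]
  have h := nonlin_lip hc (polyS c s + x / s ^ 8) (polyS c s + x' / s ^ 8)
  rw [show polyS c s + x / s ^ 8 - (polyS c s + x' / s ^ 8) = (x - x') / s ^ 8 by ring, abs_div,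
    abs_of_pos (pow_pos hp 8)] at h
  have h2 : |nonlin c (polyS c s + x / s ^ 8) - nonlin c (polyS c s + x' / s ^ 8)| ≤
      51 / 100 * (2 / 1000) * (|x - x'| / s ^ 8) :=
    h.trans (mul_le_mul_of_nonneg_right (by
      linarith [abs_clip_le (polyS c s + x / s ^ 8), abs_clip_le (polyS c s + x' / s ^ 8)])
      (by positivity))
  refine (mul_le_mul_of_nonneg_left h2 (by positivity)).trans ?_
  rw [show 27 / 8 * s ^ 8 * (51 / 100 * (2 / 1000) * (|x - x'| / s ^ 8)) =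
    27 / 8 * (51 / 100 * (2 / 1000)) * |x - x'| * (s ^ 8 / s ^ 8) by ring,
    div_self (pow_ne_zero 8 hp.ne'), mul_one]
  nlinarith [abs_nonneg (x - x')]

/-- Size of the forcing. -/
theorem rhs_le {c s x z W : ℝ} (hc : c ∈ cSet) (hs : 16 ≤ s) (hx : |x| ≤ W * s ^ 2) :
    |rhs c x z s| ≤ bet * |z| + 26 / 1000 * |x| +
      171 / 100 * (235 / 1000 + W / 4096) ^ 2 * s ^ 2 := by
  have hp : 0 < s := by linarith
  rw [rhs]
  refine (abs_add_three _ _ _).trans (add_le_add (add_le_add ?_ ?_) ?_)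
  · rw [abs_mul]; exact mul_le_mul_of_nonneg_right (bet_coef hs).1 (abs_nonneg _)
  · rw [abs_mul]; exact mul_le_mul_of_nonneg_right (kap_coef hc hs).1 (abs_nonneg _)
  rw [abs_mul, abs_of_pos (by positivity : (0:ℝ) < 27 / 8 * s ^ 8)]
  have hu := arg_bound hc hs hx
  have hn := abs_nonlin_le hc (polyS c s + x / s ^ 8)
  have hsq : clip (polyS c s + x / s ^ 8) ^ 2 ≤ ((235 / 1000 + W / 4096) / s ^ 3) ^ 2 := by
    rw [← sq_abs]; exact pow_le_pow_left₀ (abs_nonneg _) hu 2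
  calc 27 / 8 * s ^ 8 * |nonlin c (polyS c s + x / s ^ 8)|
      ≤ 27 / 8 * s ^ 8 * (506 / 1000 * ((235 / 1000 + W / 4096) / s ^ 3) ^ 2) :=
        mul_le_mul_of_nonneg_left (hn.trans (by linarith)) (by positivity)
    _ = 27 / 8 * (506 / 1000) * (235 / 1000 + W / 4096) ^ 2 * s ^ 2 := by
        field_simp
    _ ≤ _ := by
        have h0 : (27 / 8 * (506 / 1000) : ℝ) ≤ 171 / 100 := by norm_num
        exact mul_le_mul_of_nonneg_right (mul_le_mul_of_nonneg_right h0 (sq_nonneg _)) (sq_nonneg _)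

/-- Dependence of the forcing on `c`. -/
theorem rhs_param {c c' s x z W : ℝ} (hc : c ∈ cSet) (hc' : c' ∈ cSet) (hs : 16 ≤ s)
    (hx : |x| ≤ W * s ^ 2) (hW : W ≤ 43) :
    |rhs c x z s - rhs c' x z s| ≤ 250 * |c - c'| * s ^ 2 := by
  have hp : 0 < s := by linarith
  rw [show rhs c x z s - rhs c' x z s = (27 / (16 * c' ^ 2) - 27 / (16 * c ^ 2)) * x +
      27 / 8 * s ^ 8 * (nonlin c (polyS c s + x / s ^ 8) - nonlin c' (polyS c' s + x / s ^ 8)) by
    simp only [rhs]; ring]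
  refine (abs_add_le _ _).trans ?_
  have h1 : |27 / (16 * c' ^ 2) - 27 / (16 * c ^ 2)| ≤ 342 / 100 * |c - c'| := by
    have h0 : c ≠ 0 := by linarith [hc.1]
    have h0' : c' ≠ 0 := by linarith [hc'.1]
    rw [show 27 / (16 * c' ^ 2) - 27 / (16 * c ^ 2) =
      (c - c') * (27 * (c + c') / (16 * (c' ^ 2 * c ^ 2))) by field_simp; ring, abs_mul, mul_comm]
    refine mul_le_mul_of_nonneg_right ?_ (abs_nonneg _)
    have hcc : (998 / 1000 : ℝ) ^ 2 * (998 / 1000) ^ 2 ≤ c' ^ 2 * c ^ 2 :=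
      mul_le_mul (pow_le_pow_left₀ (by norm_num) hc'.1 2) (pow_le_pow_left₀ (by norm_num) hc.1 2)
        (by norm_num) (sq_nonneg _)
    rw [abs_of_nonneg (by have := hc.1; have := hc'.1; positivity), div_le_iff₀ (by positivity)]
    nlinarith [hc.2, hc'.2]
  set u := polyS c s + x / s ^ 8 with hu
  set u' := polyS c' s + x / s ^ 8 with hu'
  have hW4 : (235 / 1000 + W / 4096) / s ^ 3 ≤ 246 / 1000 / s ^ 3 :=
    div_le_div_of_nonneg_right (by linarith) (by positivity)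
  have hb : |clip u| ≤ 246 / 1000 / s ^ 3 := (arg_bound hc hs hx).trans hW4
  have hb' : |clip u'| ≤ 246 / 1000 / s ^ 3 := (arg_bound hc' hs hx).trans hW4
  have hd : |u - u'| ≤ 120 * |c - c'| / s ^ 3 := by
    rw [hu, hu', add_sub_add_right_eq_sub]; exact polyS_lip hc hc' hs
  have hn : |nonlin c u - nonlin c' u'| ≤
      51 / 100 * (2 * (246 / 1000 / s ^ 3)) * (120 * |c - c'| / s ^ 3) +
      2 * (246 / 1000 / s ^ 3) ^ 2 * |c - c'| := by
    refine (abs_sub_le _ (nonlin c u') _).trans (add_le_add ?_ ?_)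
    · exact (nonlin_lip hc u u').trans (mul_le_mul (by linarith) hd (abs_nonneg _) (by positivity))
    · refine (nonlin_param hc hc' u').trans (mul_le_mul_of_nonneg_right ?_ (abs_nonneg _))
      rw [← sq_abs (clip u')]
      linarith [pow_le_pow_left₀ (abs_nonneg _) hb' 2]
  rw [abs_mul, abs_mul, abs_of_pos (by positivity : (0:ℝ) < 27 / 8 * s ^ 8)]
  refine (add_le_add (mul_le_mul h1 hx (abs_nonneg _) (by positivity))
    (mul_le_mul_of_nonneg_left hn (by positivity))).trans ?_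
  rw [show 27 / 8 * s ^ 8 * (51 / 100 * (2 * (246 / 1000 / s ^ 3)) * (120 * |c - c'| / s ^ 3) +
      2 * (246 / 1000 / s ^ 3) ^ 2 * |c - c'|) =
      27 / 8 * (51 / 100 * (2 * (246 / 1000)) * 120 + 2 * (246 / 1000) ^ 2) *
      (|c - c'| * s ^ 2) by field_simp]
  have hp2 : 0 ≤ |c - c'| * s ^ 2 := by positivity
  nlinarith [mul_le_mul_of_nonneg_right hW hp2]

end Vale.Agent.P264.Soliton.Tail
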