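import Mathlib
import Vale.Agent.P264.Soliton.Tail.Forcing

/-! The tail forcing as a fixed point, and its dependence on the two parameters. -/

namespace Vale.Agent.P264.Soliton.Tail

open Set Filter Function BoundedContinuousFunction
open scoped Topology

/-- Admissible values of `w 16`. -/
def hSet : Set ℝ := Icc (-4295) 4295

noncomputable def ext (g : ℝ →ᵇ ℝ) (r : ℝ) : ℝ := max r 16 ^ 2 * g r

theorem ext_cont (g : ℝ →ᵇ ℝ) : Continuous (ext g) := by
  have := g.continuous
  unfold ext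
  fun_prop

theorem ext_le (g : ℝ →ᵇ ℝ) (r : ℝ) (hr : 16 ≤ r) : |ext g r| ≤ ‖g‖ * r ^ 2 := by
  rw [ext, max_eq_left hr, abs_mul, abs_of_nonneg (sq_nonneg r), mul_comm]
  exact mul_le_mul_of_nonneg_right (g.norm_coe_le_norm r) (sq_nonneg r)

theorem ext_adm (g : ℝ →ᵇ ℝ) : Adm (ext g) := adm_of_growth (ext_cont g) (ext_le g)

theorem sol_cont {f : ℝ → ℝ} (hf : Continuous f) (h : ℝ) (k : ℕ) (hk : k ≤ 2) :
    Continuous (sol k f h) :=
  continuous_iff_continuousAt.2 fun s => (sol_deriv hf h k hk s).continuousAt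

noncomputable def raw (c h : ℝ) (g : ℝ →ᵇ ℝ) (s : ℝ) : ℝ :=
  rhs c (sol 0 (ext g) h s) (sol 1 (ext g) h s) s / s ^ 2

theorem sol_ext_le (h : ℝ) (g : ℝ →ᵇ ℝ) {s : ℝ} (hs : 16 ≤ s) :
    |sol 0 (ext g) h s| ≤ (209 / 100 * ‖g‖ + |h| / 256) * s ^ 2 := by
  refine ((sol_poly (ext_adm g) (ext_le g) h hs).1).trans ?_
  have : 256 ≤ s ^ 2 := by nlinarith
  nlinarith [abs_nonneg h]

theorem raw_le {c : ℝ} (hc : c ∈ cSet) (h : ℝ) (g : ℝ →ᵇ ℝ) {s : ℝ} (hs : 16 ≤ s) :
    |raw c h g s| ≤ bet * (252 / 100 * ‖g‖ + 249 / 200 * (|h| / 256)) +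
      26 / 1000 * (209 / 100 * ‖g‖ + |h| / 256) +
      171 / 100 * (235 / 1000 + (209 / 100 * ‖g‖ + |h| / 256) / 4096) ^ 2 := by
  have hp : 0 < s ^ 2 := by positivity
  rw [raw, abs_div, abs_of_pos hp, div_le_iff₀ hp]
  refine (rhs_le hc hs (sol_ext_le h g hs)).trans ?_
  have hb : 0 < bet := by norm_num [bet]
  have h1 : |sol 1 (ext g) h s| ≤ (252 / 100 * ‖g‖ + 249 / 200 * (|h| / 256)) * s ^ 2 := by
    refine ((sol_poly (ext_adm g) (ext_le g) h hs).2.1).trans ?_
    have : 256 ≤ s ^ 2 := by nlinarith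
    nlinarith [abs_nonneg h]
  have h0 := sol_ext_le h g hs
  nlinarith [mul_le_mul_of_nonneg_left h1 hb.le]

theorem raw_cont {c : ℝ} (hc : c ∈ cSet) (h : ℝ) (g : ℝ →ᵇ ℝ) :
    Continuous fun r => raw c h g (max r 16) := by
  have h0 := sol_cont (ext_cont g) h 0 (by norm_num)
  have h1 := sol_cont (ext_cont g) h 1 (by norm_num)
  have hm : ∀ r : ℝ, max r 16 ≠ 0 := fun r => (lt_max_of_lt_right (by norm_num : (0:ℝ) < 16)).ne'
  have hd : ∀ u, 2 * c ^ 2 * (c + clip u) ≠ 0 := fun u => by linarith [den_pos hc u]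
  have hn : Continuous (nonlin c) := by
    have hcl : Continuous clip := by unfold clip; fun_prop
    exact (hcl.pow 2).div₀ (by fun_prop) hd
  have hu : Continuous fun r : ℝ =>
      polyS c (max r 16) + sol 0 (ext g) h (max r 16) / max r 16 ^ 8 := by
    unfold polyS
    fun_prop (disch := intro r; exact pow_ne_zero _ (hm r))
  have hn' := hn.comp hu
  unfold raw rhs
  refine Continuous.div₀ ?_ (by fun_prop) (fun r => pow_ne_zero _ (hm r))
  refine ((Continuous.mul ?_ (by fun_prop)).add (Continuous.mul ?_ (by fun_prop))).add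
    (Continuous.mul (by fun_prop) hn')
  · exact (continuous_const.div₀ (by fun_prop) fun r => mul_ne_zero four_ne_zero
      (pow_ne_zero _ (hm r))).sub continuous_const
  · exact (continuous_const.add (continuous_const.div₀ (by fun_prop)
      fun r => pow_ne_zero _ (hm r))).sub continuous_const

noncomputable def step (c : cSet) (h : ℝ) (g : ℝ →ᵇ ℝ) : ℝ →ᵇ ℝ :=
  ofNormedAddCommGroup (fun r => raw c h g (max r 16)) (raw_cont c.2 h g) _
    (fun r => (Real.norm_eq_abs _).le.trans (raw_le c.2 h g (le_max_right r 16)))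

theorem step_apply (c : cSet) (h : ℝ) (g : ℝ →ᵇ ℝ) (r : ℝ) :
    step c h g r = raw c h g (max r 16) := rfl

theorem step_contracting (c : cSet) (h : ℝ) :
    ContractingWith (3 / 5 : NNReal) (step c h) := by
  refine ⟨by rw [← NNReal.coe_lt_coe]; norm_num, LipschitzWith.of_dist_le_mul fun g g' => ?_⟩
  have e : ((3 / 5 : NNReal) : ℝ) = 3 / 5 := by norm_num
  rw [e, dist_eq_norm g g']
  refine (BoundedContinuousFunction.dist_le (by positivity)).2 fun r => ?_
  simp only [step_apply, Real.dist_eq]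
  set s := max r 16
  have hs : (16 : ℝ) ≤ s := le_max_right _ _
  have hp : 0 < s ^ 2 := by positivity
  rw [raw, raw, ← sub_div, abs_div, abs_of_pos hp, div_le_iff₀ hp]
  refine (rhs_sub_le c.2 hs).trans ?_
  rw [← sol_sub (ext_adm g) (ext_adm g') 0 h h s, ← sol_sub (ext_adm g) (ext_adm g') 1 h h s,
    sub_self]
  have hd : ∀ x, 16 ≤ x → |ext g x - ext g' x| ≤ ‖g - g'‖ * x ^ 2 := fun x hx => by
    have := ext_le (g - g') x hx
    rwa [show ext (g - g') x = ext g x - ext g' x by simp [ext, mul_sub]] at this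
  obtain ⟨b0, b1, -⟩ := sol_poly ((ext_adm g).sub (ext_adm g')) hd 0 hs
  rw [abs_zero, add_zero] at b0
  rw [abs_zero, mul_zero, add_zero] at b1
  refine (add_le_add (abs_add_le _ _) le_rfl).trans ?_
  rw [abs_mul, abs_mul]
  have p1 := mul_le_mul (bet_coef hs).1 b1 (abs_nonneg _) (by norm_num [bet])
  have p0 := mul_le_mul (kap_coef c.2 hs).1 b0 (abs_nonneg _) (by norm_num)
  have hn : 0 ≤ ‖g - g'‖ * s ^ 2 := by positivity
  simp only [bet] at p1 ⊢
  linarith

noncomputable def forc (c : cSet) (h : ℝ) : ℝ →ᵇ ℝ :=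
  ContractingWith.fixedPoint (step c h) (step_contracting c h)

theorem forc_fixed (c : cSet) (h : ℝ) : step c h (forc c h) = forc c h :=
  (step_contracting c h).fixedPoint_isFixedPt

/-- The forcing satisfies the nonlinear equation. -/
theorem forc_eq (c : cSet) (h : ℝ) {s : ℝ} (hs : 16 ≤ s) :
    ext (forc c h) s =
      rhs c (sol 0 (ext (forc c h)) h s) (sol 1 (ext (forc c h)) h s) s := by
  conv_lhs => rw [ext, max_eq_left hs, ← forc_fixed c h, step_apply, max_eq_left hs, raw]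
  rw [mul_div_cancel₀ _ (by positivity : s ^ 2 ≠ 0)]

theorem norm_forc_le (c : cSet) (h : ℝ) {B : ℝ}
    (hB : bet * (249 / 200 * (|h| / 256)) + 26 / 1000 * (|h| / 256) +
      171 / 100 * (235 / 1000 + |h| / 256 / 4096) ^ 2 ≤ B) : ‖forc c h‖ ≤ 5 / 2 * B := by
  have hb : (0 : ℝ) < bet := by norm_num [bet]
  have hB0 : 0 ≤ B := le_trans (by positivity) hB
  have h0 : ‖step c h 0‖ ≤ B := by
    refine (BoundedContinuousFunction.norm_le hB0).2 fun r => ?_
    rw [step_apply, Real.norm_eq_abs]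
    refine (raw_le c.2 h 0 (le_max_right r 16)).trans (le_of_le_of_eq ?_ rfl)
    simpa using hB
  have := (step_contracting c h).dist_fixedPoint_le 0
  rw [dist_zero] at this
  refine this.trans ?_
  rw [show (1 : ℝ) - ((3 / 5 : NNReal) : ℝ) = 2 / 5 by norm_num, div_le_iff₀ (by norm_num)]
  linarith

theorem norm_forc_zero (c : cSet) : ‖forc c 0‖ ≤ 2362 / 10000 :=
  (norm_forc_le c 0 (B := 944361 / 10000000) (by norm_num [bet])).trans (by norm_num)

theorem norm_forc (c : cSet) {h : ℝ} (hh : h ∈ hSet) : ‖forc c h‖ ≤ 124 / 10 := by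
  refine (norm_forc_le c h (B := 496 / 100) ?_).trans (by norm_num)
  have ha : |h| ≤ 4295 := abs_le.2 ⟨hh.1, hh.2⟩
  have hsq : (235 / 1000 + |h| / 256 / 4096) ^ 2 ≤ (24 / 100 : ℝ) ^ 2 :=
    pow_le_pow_left₀ (by positivity) (by linarith) 2
  simp only [bet]
  linarith

theorem sol_shift (k : ℕ) (f : ℝ → ℝ) (h s : ℝ) :
    sol k f h s = sol k f 0 s + (-rho) ^ k * h * Real.exp (-(rho * (s - 16))) := by
  simp only [sol]; ring

theorem mul_exp_le {t : ℝ} (ht : 0 ≤ t) : t * Real.exp (-(mu * t)) ≤ 591 / 1000 := by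
  have h1 : mu * t ≤ Real.exp (mu * t - 1) := by linarith [Real.add_one_le_exp (mu * t - 1)]
  rw [Real.exp_sub, le_div_iff₀ (Real.exp_pos _)] at h1
  rw [Real.exp_neg, ← div_eq_mul_inv, div_le_iff₀ (Real.exp_pos _)]
  have h2 := Real.exp_one_gt_d9
  have h3 : mu * t * 2.7182818283 ≤ mu * t * Real.exp 1 :=
    mul_le_mul_of_nonneg_left h2.le (mul_nonneg mu_pos.le ht)
  simp only [mu, rho] at *
  norm_num at *
  linarith

theorem step_exp (c : cSet) (h h' : ℝ) (g g' : ℝ →ᵇ ℝ)
    (hg : ∀ r, 16 ≤ r → |ext g r - ext g' r| ≤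
      42 / 1000 * |h - h'| * Real.exp (-(mu * (r - 16)))) {s : ℝ} (hs : 16 ≤ s) :
    |ext (step c h g) s - ext (step c h' g') s| ≤
      42 / 1000 * |h - h'| * Real.exp (-(mu * (s - 16))) := by
  have hp : s ^ 2 ≠ 0 := by positivity
  simp only [ext, step_apply, max_eq_left hs, raw, mul_div_cancel₀ _ hp]
  refine (rhs_sub_le c.2 hs).trans ?_
  rw [← sol_sub (ext_adm g) (ext_adm g') 0 h h' s, ← sol_sub (ext_adm g) (ext_adm g') 1 h h' s,
    sol_shift 0 _ (h - h'), sol_shift 1 _ (h - h'), pow_zero, one_mul, pow_one]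
  obtain ⟨b0, b1⟩ := sol_exp ((ext_adm g).sub (ext_adm g')) hg 0 hs
  rw [abs_zero, add_zero] at b0
  rw [abs_zero, mul_zero, add_zero] at b1
  set x := sol 0 (fun r => ext g r - ext g' r) 0 s
  set z := sol 1 (fun r => ext g r - ext g' r) 0 s
  set d := h - h'
  set a := 215 / (4 * s ^ 2) - bet
  set k := kap + 95 / s ^ 3 - 27 / (16 * (c : ℝ) ^ 2)
  set E := Real.exp (-(mu * (s - 16))) with hE
  set G := Real.exp (-(rho * (s - 16))) with hG
  have hE0 : 0 < E := Real.exp_pos _
  have hG0 : 0 < G := Real.exp_pos _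
  have hdE : 0 ≤ |d| * E := by positivity
  obtain ⟨ha, ha'⟩ := bet_coef hs
  obtain ⟨hk, hk'⟩ := kap_coef c.2 hs
  have hGE : G ≤ E := Real.exp_le_exp.2 (by simp only [mu, rho]; linarith)
  have htG : (s - 16) * G ≤ 591 / 1000 * E := by
    rw [show G = E * E by rw [hG, hE, ← Real.exp_add]; congr 1; simp only [mu]; ring, ← mul_assoc]
    exact mul_le_mul_of_nonneg_right (mul_exp_le (by linarith)) hE0.le
  have key : |a * (z + -rho * d * G) + k * (x + d * G)| + 345 / 100000 * |x + d * G| ≤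
      |a| * |z| + (|k| + 345 / 100000) * |x| +
        (|a| * rho + |k| + 345 / 100000) * G * |d| := by
    have e1 := abs_add_le (a * (z + -rho * d * G)) (k * (x + d * G))
    have e2 := abs_add_le z (-rho * d * G)
    have e3 := abs_add_le x (d * G)
    rw [abs_mul a, abs_mul k] at e1
    rw [abs_mul, abs_mul, abs_neg, abs_of_pos rho_pos, abs_of_pos hG0] at e2
    rw [abs_mul d, abs_of_pos hG0] at e3
    nlinarith [mul_le_mul_of_nonneg_left e2 (abs_nonneg a),
      mul_le_mul_of_nonneg_left e3 (abs_nonneg k)]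
  refine key.trans ?_
  have p1 := mul_le_mul ha b1 (abs_nonneg _) (by norm_num [bet])
  have p0 := mul_le_mul (add_le_add hk (le_refl (345 / 100000 : ℝ))) b0 (abs_nonneg _) (by norm_num)
  have p2 : (|a| * rho + |k| + 345 / 100000) * G ≤
      (bet / 8 * rho + 435 / 100000) * ((s - 16) * G) + 625 / 100000 * G := by
    have := mul_le_mul_of_nonneg_right ha' rho_pos.le
    have h3 : |a| * rho + |k| + 345 / 100000 ≤
        (bet / 8 * rho + 435 / 100000) * (s - 16) + 625 / 100000 := by linarith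
    have := mul_le_mul_of_nonneg_right h3 hG0.le
    linarith
  have p3 : (|a| * rho + |k| + 345 / 100000) * G ≤
      ((bet / 8 * rho + 435 / 100000) * (591 / 1000) + 625 / 100000) * E := by
    have : (0 : ℝ) ≤ bet / 8 * rho + 435 / 100000 := by norm_num [bet, rho]
    have := mul_le_mul_of_nonneg_left htG this
    linarith
  have p4 := mul_le_mul_of_nonneg_right p3 (abs_nonneg d)
  have p1' : |a| * |z| ≤ 215 / 1024 * (139 / 100 * (42 / 1000 * |d|) * E) := p1
  have p0' : (|k| + 345 / 100000) * |x| ≤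
      (26 / 1000 + 345 / 100000) * (1144 / 1000 * (42 / 1000 * |d|) * E) := p0
  simp only [bet, rho] at p4 ⊢
  linarith

theorem forc_exp (c : cSet) (h h' : ℝ) {s : ℝ} (hs : 16 ≤ s) :
    |ext (forc c h) s - ext (forc c h') s| ≤
      42 / 1000 * |h - h'| * Real.exp (-(mu * (s - 16))) := by
  have hn : ∀ n : ℕ, ∀ r, 16 ≤ r →
      |ext ((step c h)^[n] 0) r - ext ((step c h')^[n] 0) r| ≤
        42 / 1000 * |h - h'| * Real.exp (-(mu * (r - 16))) := by
    intro n
    induction n with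
    | zero => intro r _; simp [ext]; positivity
    | succ n ih =>
      intro r hr
      rw [iterate_succ_apply', iterate_succ_apply']
      exact step_exp c h h' _ _ ih hr
  have ht : ∀ h0, Tendsto (fun n => ext ((step c h0)^[n] 0) s) atTop
      (𝓝 (ext (forc c h0) s)) := fun h0 =>
    (((continuous_eval_const (F := ℝ →ᵇ ℝ) s).tendsto _).comp
      ((step_contracting c h0).tendsto_iterate_fixedPoint 0)).const_mul (max s 16 ^ 2)
  exact le_of_tendsto ((ht h).sub (ht h')).abs (Eventually.of_forall fun n => hn n s hs)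

theorem forc_param (c c' : cSet) {h : ℝ} (hh : h ∈ hSet) :
    ‖forc c h - forc c' h‖ ≤ 625 * |(c : ℝ) - c'| := by
  have h1 : dist (step c h (forc c' h)) (forc c' h) ≤ 250 * |(c : ℝ) - c'| := by
    conv_lhs => arg 2; rw [← forc_fixed c' h]
    refine (BoundedContinuousFunction.dist_le (by positivity)).2 fun r => ?_
    simp only [step_apply, Real.dist_eq]
    set s := max r 16
    have hs : (16 : ℝ) ≤ s := le_max_right _ _
    have hp : 0 < s ^ 2 := by positivity
    rw [raw, raw, ← sub_div, abs_div, abs_of_pos hp, div_le_iff₀ hp]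
    refine rhs_param c.2 c'.2 hs (sol_ext_le h _ hs) ?_
    have ha : |h| ≤ 4295 := abs_le.2 ⟨hh.1, hh.2⟩
    linarith [norm_forc c' hh]
  have h2 := (step_contracting c h).dist_fixedPoint_le (forc c' h)
  rw [dist_comm (forc c' h) (step c h (forc c' h)),
    show (1 : ℝ) - ((3 / 5 : NNReal) : ℝ) = 2 / 5 by norm_num, le_div_iff₀ (by norm_num)] at h2
  rw [← dist_eq_norm, dist_comm]
  change dist (forc c' h) (ContractingWith.fixedPoint (step c h) (step_contracting c h)) ≤ _
  linarith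

theorem bwd_forc_zero (c : cSet) : ‖bwd (ext (forc c 0)) 16‖ ≤ 1187 / 10 := by
  have := bwd_poly (ext_adm _) (ext_le (forc c 0)) (le_refl (16 : ℝ))
  nlinarith [norm_forc_zero c]

theorem bwd_forc_lip (c c' : cSet) {h h' : ℝ} (hh' : h' ∈ hSet) :
    ‖bwd (ext (forc c h)) 16 - bwd (ext (forc c' h')) 16‖ ≤
      3374 / 100000 * |h - h'| + 315000 * |(c : ℝ) - c'| := by
  refine (norm_sub_le_norm_sub_add_norm_sub _ (bwd (ext (forc c h')) 16) _).trans (add_le_add ?_ ?_)
  · rw [← bwd_sub (ext_adm _) (ext_adm _)]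
    refine (bwd_exp ((ext_adm _).sub (ext_adm _)) (fun r hr => forc_exp c h h' hr) le_rfl).trans ?_
    rw [show -(mu * ((16 : ℝ) - 16)) = 0 by ring, Real.exp_zero, mul_one]
    linarith [abs_nonneg (h - h')]
  · rw [← bwd_sub (ext_adm _) (ext_adm _)]
    refine (bwd_poly (M := 625 * |(c : ℝ) - c'|) ((ext_adm _).sub (ext_adm _)) (fun r hr => ?_)
      le_rfl).trans (by linarith [abs_nonneg ((c : ℝ) - c')])
    have h1 := ext_le (forc c h' - forc c' h') r hr
    rw [show ext (forc c h' - forc c' h') r = ext (forc c h') r - ext (forc c' h') r by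
      simp [ext, mul_sub]] at h1
    exact h1.trans (mul_le_mul_of_nonneg_right (forc_param c c' hh') (sq_nonneg r))

end Vale.Agent.P264.Soliton.Tail
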