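import Mathlib
import Vale.Agent.P264.Soliton.Tail.Fixed
import Vale.Agent.P264.Soliton.Tail.Boot

/-! The tail profile in `y`, through `s = y ^ (2/3)`. -/

namespace Vale.Agent.P264.Soliton.Tail

open Set Filter
open scoped Topology

noncomputable def sOf (y : ℝ) : ℝ := y ^ ((2 : ℝ) / 3)

theorem sOf_pos {y : ℝ} (hy : 0 < y) : 0 < sOf y := Real.rpow_pos_of_pos hy _

theorem sOf_cube {y : ℝ} (hy : 0 < y) : sOf y ^ 3 = y ^ 2 := by
  rw [sOf, ← Real.rpow_natCast, ← Real.rpow_mul hy.le, ← Real.rpow_natCast]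
  norm_num

theorem sOf_ge {y : ℝ} (hy : 64 ≤ y) : 16 ≤ sOf y := by
  refine le_of_pow_le_pow_left₀ (by norm_num : 3 ≠ 0) (sOf_pos (by linarith)).le ?_
  rw [sOf_cube (by linarith)]
  nlinarith

theorem sOf_base : sOf 64 = 16 :=
  (pow_left_inj₀ (sOf_pos (by norm_num)).le (by norm_num) (by norm_num : 3 ≠ 0)).1
    (by rw [sOf_cube (by norm_num)]; norm_num)

theorem sOf_deriv {y : ℝ} (hy : 0 < y) : HasDerivAt sOf (2 / (3 * y) * sOf y) y := by
  refine (Real.hasDerivAt_rpow_const (Or.inl hy.ne')).congr_deriv ?_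
  rw [Real.rpow_sub_one hy.ne', sOf]
  field_simp

theorem lift_deriv {φ : ℝ → ℝ} {d y : ℝ} (hy : 0 < y) (h : HasDerivAt φ (d / sOf y) (sOf y)) :
    HasDerivAt (fun t => φ (sOf t)) (2 / (3 * y) * d) y := by
  refine (h.comp y (sOf_deriv hy)).congr_deriv ?_
  have := (sOf_pos hy).ne'
  field_simp

theorem clo_le : (998 / 1000 : ℝ) ≤ 9995 / 10000 := by norm_num

noncomputable def par (c : ℝ) : cSet := projIcc _ _ clo_le c

theorem par_eq {c : ℝ} (hc : c ∈ cSet) : par c = ⟨c, hc⟩ := projIcc_of_mem clo_le hc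

noncomputable def hval (a : ℝ) : ℝ := 4294967296 * a

theorem hval_mem {a : ℝ} (ha : a ∈ aSet) : hval a ∈ hSet := by
  obtain ⟨h1, h2⟩ := ha
  constructor <;> simp only [hval] <;> linarith

noncomputable def fS (c a : ℝ) : ℝ → ℝ := ext (forc (par c) (hval a))

noncomputable def W (k : ℕ) (c a s : ℝ) : ℝ := sol k (fS c a) (hval a) s

noncomputable def v0 (c a s : ℝ) : ℝ := W 0 c a s / s ^ 8

noncomputable def v1 (c a s : ℝ) : ℝ := (s * W 1 c a s - 8 * W 0 c a s) / s ^ 8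

noncomputable def v2 (c a s : ℝ) : ℝ :=
  (s ^ 2 * W 2 c a s - 15 * s * W 1 c a s + 64 * W 0 c a s) / s ^ 8

noncomputable def v3 (c a s : ℝ) : ℝ :=
  (s ^ 3 * (W 3 c a s + fS c a s) - 21 * s ^ 2 * W 2 c a s + 169 * s * W 1 c a s
    - 512 * W 0 c a s) / s ^ 8

theorem W_deriv (k : ℕ) (hk : k ≤ 2) (c a s : ℝ) :
    HasDerivAt (W k c a) (W (k + 1) c a s + (if k = 2 then fS c a s else 0)) s :=
  sol_deriv (ext_cont _) _ k hk s

theorem W0_deriv (c a s : ℝ) : HasDerivAt (W 0 c a) (W 1 c a s) s := by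
  simpa using W_deriv 0 (by norm_num) c a s

theorem W1_deriv (c a s : ℝ) : HasDerivAt (W 1 c a) (W 2 c a s) s := by
  simpa using W_deriv 1 (by norm_num) c a s

theorem W2_deriv (c a s : ℝ) : HasDerivAt (W 2 c a) (W 3 c a s + fS c a s) s := by
  simpa using W_deriv 2 le_rfl c a s

theorem v0_deriv (c a : ℝ) {s : ℝ} (hs : 0 < s) :
    HasDerivAt (v0 c a) (v1 c a s / s) s := by
  refine ((W0_deriv c a s).div (hasDerivAt_pow 8 s) (pow_ne_zero _ hs.ne')).congr_deriv ?_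
  simp only [v1]
  push_cast
  field_simp

theorem v1_deriv (c a : ℝ) {s : ℝ} (hs : 0 < s) :
    HasDerivAt (v1 c a) (v2 c a s / s) s := by
  refine ((((hasDerivAt_id' s).mul (W1_deriv c a s)).sub ((W0_deriv c a s).const_mul 8)).div
    (hasDerivAt_pow 8 s) (pow_ne_zero _ hs.ne')).congr_deriv ?_
  simp only [v2, Pi.sub_apply, Pi.mul_apply]
  push_cast
  field_simp
  ring

theorem v2_deriv (c a : ℝ) {s : ℝ} (hs : 0 < s) :
    HasDerivAt (v2 c a) (v3 c a s / s) s := by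
  refine (((((hasDerivAt_pow 2 s).mul (W2_deriv c a s)).sub
    (((hasDerivAt_id' s).const_mul 15).mul (W1_deriv c a s))).add
      ((W0_deriv c a s).const_mul 64)).div
    (hasDerivAt_pow 8 s) (pow_ne_zero _ hs.ne')).congr_deriv ?_
  simp only [v3, Pi.sub_apply, Pi.add_apply, Pi.mul_apply]
  push_cast
  field_simp
  ring

noncomputable def qT (c a y : ℝ) : ℝ := c + tailPoly c y + v0 c a (sOf y)

noncomputable def qT1 (c a y : ℝ) : ℝ := tailPoly1 c y + 2 / (3 * y) * v1 c a (sOf y)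

noncomputable def qT2 (c a y : ℝ) : ℝ :=
  tailPoly2 c y + (4 * v2 c a (sOf y) - 6 * v1 c a (sOf y)) / (9 * y ^ 2)

noncomputable def tailPoly3 (c y : ℝ) : ℝ :=
  -(24 * coef1 c / y ^ 5 + 120 * coef2 c / y ^ 7 + 336 * coef3 c / y ^ 9 + 720 * coef4 c / y ^ 11)

noncomputable def qT3 (c a y : ℝ) : ℝ :=
  tailPoly3 c y +
    (8 * v3 c a (sOf y) - 36 * v2 c a (sOf y) + 36 * v1 c a (sOf y)) / (27 * y ^ 3)

theorem inv_pow_deriv (k : ℝ) (n : ℕ) {y : ℝ} (hy : 0 < y) :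
    HasDerivAt (fun t => k / t ^ (n + 1)) (-((n + 1 : ℕ) * k) / y ^ (n + 2)) y := by
  refine ((hasDerivAt_const y k).div (hasDerivAt_pow (n + 1) y)
    (pow_ne_zero _ hy.ne')).congr_deriv ?_
  push_cast
  field_simp
  ring

theorem tailPoly_deriv (c : ℝ) {y : ℝ} (hy : 0 < y) :
    HasDerivAt (tailPoly c) (tailPoly1 c y) y ∧ HasDerivAt (tailPoly1 c) (tailPoly2 c y) y ∧
    HasDerivAt (tailPoly2 c) (tailPoly3 c y) y := by
  have d := fun k n => inv_pow_deriv k n hy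
  refine ⟨?_, ?_, ?_⟩
  · refine ((((d (coef1 c) 1).add (d (coef2 c) 3)).add (d (coef3 c) 5)).add
      (d (coef4 c) 7)).congr_deriv ?_
    simp only [tailPoly1]
    push_cast
    ring
  · refine (((((d (2 * coef1 c) 2).add (d (4 * coef2 c) 4)).add (d (6 * coef3 c) 6)).add
      (d (8 * coef4 c) 8)).neg).congr_deriv ?_
    simp only [tailPoly2]
    push_cast
    ring
  · refine ((((d (6 * coef1 c) 3).add (d (20 * coef2 c) 5)).add (d (42 * coef3 c) 7)).add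
      (d (72 * coef4 c) 9)).congr_deriv ?_
    simp only [tailPoly3]
    push_cast
    ring

theorem qT_deriv (c a : ℝ) {y : ℝ} (hy : 0 < y) : HasDerivAt (qT c a) (qT1 c a y) y :=
  ((tailPoly_deriv c hy).1.const_add c).add (lift_deriv hy (v0_deriv c a (sOf_pos hy)))

theorem qT1_deriv (c a : ℝ) {y : ℝ} (hy : 0 < y) : HasDerivAt (qT1 c a) (qT2 c a y) y := by
  refine ((tailPoly_deriv c hy).2.1.add (((hasDerivAt_const y (2 : ℝ)).div
    ((hasDerivAt_id' y).const_mul 3) (by positivity)).mul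
      (lift_deriv hy (v1_deriv c a (sOf_pos hy))))).congr_deriv ?_
  simp only [qT2, add_right_inj, Pi.div_apply]
  field_simp
  ring

theorem qT2_deriv (c a : ℝ) {y : ℝ} (hy : 0 < y) : HasDerivAt (qT2 c a) (qT3 c a y) y := by
  refine ((tailPoly_deriv c hy).2.2.add
    ((((lift_deriv hy (v2_deriv c a (sOf_pos hy))).const_mul 4).sub
      ((lift_deriv hy (v1_deriv c a (sOf_pos hy))).const_mul 6)).div
        ((hasDerivAt_pow 2 y).const_mul 9) (by positivity))).congr_deriv ?_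
  simp only [qT3, add_right_inj, Pi.sub_apply]
  push_cast
  field_simp
  ring

theorem polyS_sOf (c : ℝ) {y : ℝ} (hy : 0 < y) : polyS c (sOf y) = tailPoly c y := by
  have e := sOf_cube hy
  simp only [polyS, tailPoly, show sOf y ^ 6 = (sOf y ^ 3) ^ 2 by ring,
    show sOf y ^ 9 = (sOf y ^ 3) ^ 3 by ring, show sOf y ^ 12 = (sOf y ^ 3) ^ 4 by ring, e]
  ring

theorem W_le {c a : ℝ} (ha : a ∈ aSet) {s : ℝ} (hs : 16 ≤ s) :
    |W 0 c a s| ≤ 43 * s ^ 2 ∧ |W 1 c a s| ≤ 53 * s ^ 2 ∧ |W 2 c a s| ≤ 84 * s ^ 2 := by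
  have hh := hval_mem ha
  have hn := norm_forc (par c) hh
  have hab : |hval a| ≤ 4295 := abs_le.2 ⟨hh.1, hh.2⟩
  obtain ⟨b0, b1, b2⟩ := sol_poly (ext_adm _) (ext_le (forc (par c) (hval a))) (hval a) hs
  have h256 : 256 ≤ s ^ 2 := by nlinarith
  have hn0 := norm_nonneg (forc (par c) (hval a))
  refine ⟨b0.trans ?_, b1.trans ?_, b2.trans ?_⟩ <;>
    nlinarith [mul_le_mul_of_nonneg_right hn (sq_nonneg s)]

theorem u_small {c a : ℝ} (hc : c ∈ cSet) (ha : a ∈ aSet) {y : ℝ} (hy : 64 ≤ y) :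
    |tailPoly c y + v0 c a (sOf y)| ≤ 246 / 1000 / y ^ 2 := by
  have hy0 : 0 < y := by linarith
  have hs := sOf_ge hy
  have hp := sOf_pos hy0
  rw [← polyS_sOf c hy0, ← sOf_cube hy0]
  refine (abs_add_le _ _).trans ?_
  have hv : |v0 c a (sOf y)| ≤ 43 / 4096 / sOf y ^ 3 := by
    rw [v0, abs_div, abs_of_pos (pow_pos hp 8), div_le_iff₀ (pow_pos hp 8)]
    refine ((W_le ha hs).1).trans ?_
    rw [div_mul_eq_mul_div, le_div_iff₀ (pow_pos hp 3)]
    have h3 : (4096 : ℝ) ≤ sOf y ^ 3 := by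
      linarith [pow_le_pow_left₀ (by norm_num : (0:ℝ) ≤ 16) hs 3]
    nlinarith [mul_le_mul_of_nonneg_left h3 (pow_pos hp 5).le]
  calc |polyS c (sOf y)| + |v0 c a (sOf y)|
      ≤ 235 / 1000 / sOf y ^ 3 + 43 / 4096 / sOf y ^ 3 := add_le_add (polyS_bound hc hs) hv
    _ ≤ _ := by rw [← add_div]; exact div_le_div_of_nonneg_right (by norm_num) (by positivity)

theorem qT_lower {c a : ℝ} (hc : c ∈ cSet) (ha : a ∈ aSet) {y : ℝ} (hy : 64 ≤ y) :
    99 / 100 ≤ qT c a y := by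
  have h := (u_small hc ha hy).trans (div_le_self (by norm_num) (by nlinarith : (1:ℝ) ≤ y ^ 2))
  have h' := abs_le.1 h
  have hd : 246 / 1000 / y ^ 2 ≤ (1 / 1000 : ℝ) := by
    rw [div_le_iff₀ (by positivity)]; nlinarith
  have := abs_le.1 ((u_small hc ha hy).trans hd)
  simp only [qT]
  linarith [hc.1]

theorem tailPoly_eqn {c y : ℝ} (hc : c ≠ 0) (hy : 0 < y) :
    y * tailPoly3 c y + 17 * tailPoly2 c y + 56 * tailPoly1 c y / y - 56 * tailPoly c y / y ^ 2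
      + 56 * (1 - c) / y ^ 2 + tailPoly c y / (2 * c ^ 2) = 0 := by
  simp only [tailPoly, tailPoly1, tailPoly2, tailPoly3, coef4, coef3, coef2, coef1]
  field_simp
  ring

theorem v_eqn {c y s A B D N : ℝ} (hc : c ≠ 0) (hy : 0 < y) (hs : 0 < s) (h : s ^ 3 = y ^ 2) :
    y * ((8 * ((s ^ 3 * (bet * B - kap * A + ((215 / (4 * s ^ 2) - bet) * B
      + (kap + 95 / s ^ 3 - 27 / (16 * c ^ 2)) * A + 27 / 8 * s ^ 8 * N))
        - 21 * s ^ 2 * D + 169 * s * B - 512 * A) / s ^ 8)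
      - 36 * ((s ^ 2 * D - 15 * s * B + 64 * A) / s ^ 8) + 36 * ((s * B - 8 * A) / s ^ 8))
        / (27 * y ^ 3))
    + 17 * ((4 * ((s ^ 2 * D - 15 * s * B + 64 * A) / s ^ 8)
      - 6 * ((s * B - 8 * A) / s ^ 8)) / (9 * y ^ 2))
    + 56 * (2 / (3 * y) * ((s * B - 8 * A) / s ^ 8)) / y - 56 * (A / s ^ 8) / y ^ 2
    + A / s ^ 8 / (2 * c ^ 2) - N = 0 := by
  have e : ∀ X : ℝ, y * (X / (27 * y ^ 3)) = X / (27 * y ^ 2) := fun X => by field_simp
  have e' : ∀ X : ℝ, 56 * (2 / (3 * y) * X) / y = 112 / 3 * X / y ^ 2 := fun X => by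
    field_simp; ring
  rw [e, e', ← h]
  field_simp
  ring

theorem qT_eqn {c a : ℝ} (hc : c ∈ cSet) (ha : a ∈ aSet) {y : ℝ} (hy : 64 ≤ y) :
    qT3 c a y = third c y (qT c a y) (qT1 c a y) (qT2 c a y) := by
  have hy0 : 0 < y := by linarith
  have hc0 : c ≠ 0 := by linarith [hc.1]
  have hs := sOf_ge hy
  have hp := sOf_pos hy0
  have hsmall : |polyS c (sOf y) + W 0 c a (sOf y) / sOf y ^ 8| ≤ 1 / 1000 := by
    rw [polyS_sOf c hy0]
    refine (u_small hc ha hy).trans ?_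
    rw [div_le_iff₀ (by positivity)]
    nlinarith
  have hf := forc_eq (par c) (hval a) hs
  have h3 : W 3 c a (sOf y) = bet * W 1 c a (sOf y) - kap * W 0 c a (sOf y) := by
    linarith [show W 3 c a (sOf y) - bet * W 1 c a (sOf y) + kap * W 0 c a (sOf y) = 0 from
      sol_eqn _ _ _]
  have hfS : fS c a (sOf y) = rhs c (W 0 c a (sOf y)) (W 1 c a (sOf y)) (sOf y) :=
    hf.trans (by rw [par_eq hc]; simp only [W, fS, par_eq hc])
  rw [rhs, nonlin, clip_eq hsmall, polyS_sOf c hy0] at hfS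
  have hcu : c + (tailPoly c y + v0 c a (sOf y)) ≠ 0 := by
    have h0 := qT_lower hc ha hy
    simp only [qT] at h0
    linarith
  have hv := v_eqn (A := W 0 c a (sOf y)) (B := W 1 c a (sOf y)) (D := W 2 c a (sOf y))
    (N := (tailPoly c y + v0 c a (sOf y)) ^ 2 /
      (2 * c ^ 2 * (c + (tailPoly c y + v0 c a (sOf y))))) hc0 hy0 hp (sOf_cube hy0)
  have hv3 : v3 c a (sOf y) = (sOf y ^ 3 * (bet * W 1 c a (sOf y) - kap * W 0 c a (sOf y)
      + ((215 / (4 * sOf y ^ 2) - bet) * W 1 c a (sOf y)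
      + (kap + 95 / sOf y ^ 3 - 27 / (16 * c ^ 2)) * W 0 c a (sOf y)
      + 27 / 8 * sOf y ^ 8 * ((tailPoly c y + v0 c a (sOf y)) ^ 2 /
        (2 * c ^ 2 * (c + (tailPoly c y + v0 c a (sOf y)))))))
      - 21 * sOf y ^ 2 * W 2 c a (sOf y) + 169 * sOf y * W 1 c a (sOf y)
      - 512 * W 0 c a (sOf y)) / sOf y ^ 8 := by
    rw [v3, h3, hfS]; rfl
  rw [← hv3] at hv
  change y * ((8 * v3 c a (sOf y) - 36 * v2 c a (sOf y) + 36 * v1 c a (sOf y)) / (27 * y ^ 3))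
    + 17 * ((4 * v2 c a (sOf y) - 6 * v1 c a (sOf y)) / (9 * y ^ 2))
    + 56 * (2 / (3 * y) * v1 c a (sOf y)) / y - 56 * v0 c a (sOf y) / y ^ 2
    + v0 c a (sOf y) / (2 * c ^ 2) - _ = 0 at hv
  have hnl : ∀ u : ℝ, c + u ≠ 0 → 1 / (2 * c) - 1 / (2 * (c + u)) =
      u / (2 * c ^ 2) - u ^ 2 / (2 * c ^ 2 * (c + u)) := fun u hu => by
    field_simp
    ring
  have hn := hnl _ hcu
  rw [← add_assoc c (tailPoly c y) (v0 c a (sOf y))] at hn
  have htp := tailPoly_eqn (c := c) hc0 hy0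
  rw [← add_assoc c (tailPoly c y) (v0 c a (sOf y))] at hv
  rw [third, eq_div_iff hy0.ne']
  simp only [qT, qT1, qT2, qT3]
  linear_combination htp + hv + hn

theorem qT_smooth {c a : ℝ} (hc : c ∈ cSet) (ha : a ∈ aSet) :
    ContDiffOn ℝ (↑(⊤ : ℕ∞)) (qT c a) (Ici 64) := by
  refine contDiffOn_of_third (c := c) (q1 := qT1 c a) (q2 := qT2 c a) (uniqueDiffOn_Ici 64)
    (fun y hy => by linarith [mem_Ici.1 hy]) (fun y hy => by linarith [qT_lower hc ha hy])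
    (fun y hy => (qT_deriv c a (by linarith [mem_Ici.1 hy])).hasDerivWithinAt)
    (fun y hy => (qT1_deriv c a (by linarith [mem_Ici.1 hy])).hasDerivWithinAt) fun y hy => ?_
  rw [← qT_eqn hc ha hy]
  exact (qT2_deriv c a (by linarith [mem_Ici.1 hy])).hasDerivWithinAt

end Vale.Agent.P264.Soliton.Tail
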