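import Mathlib
import Vale.Agent.P264.Soliton.Tail.Sub

/-! The tail family with its boundary data at `y = 64`. -/

namespace Vale.Agent.P264.Soliton.Tail

open Set Filter
open scoped Topology

noncomputable def bvec (c a : ℝ) : ℂ := bwd (fS c a) 16

/-- `w' + rho w` at `16`. -/
noncomputable def dev1 (c a : ℝ) : ℝ := -2 * ((lam + rho) * cres * bvec c a).re

/-- `w'' - rho ^ 2 w` at `16`. -/
noncomputable def dev2 (c a : ℝ) : ℝ := -2 * ((lam ^ 2 - (rho : ℂ) ^ 2) * cres * bvec c a).re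

noncomputable def e1T (c a : ℝ) : ℝ := dev1 c a / (6 * 4294967296)

noncomputable def e2T (c a : ℝ) : ℝ := (dev2 c a - 33 / 32 * dev1 c a) / (36 * 4294967296)

theorem W_base (c a : ℝ) : W 0 c a 16 = hval a ∧ W 1 c a 16 = dev1 c a - rho * hval a ∧
    W 2 c a 16 = dev2 c a + rho ^ 2 * hval a := by
  refine ⟨sol_init _ _, ?_, ?_⟩
  · simp only [W, dev1, bvec]
    linarith [sol_one_init (fS c a) (hval a)]
  · simp only [W, dev2, bvec]
    linarith [sol_two_init (fS c a) (hval a)]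

theorem qT_value (c a : ℝ) : qT c a 64 = c + tailPoly c 64 + a := by
  rw [qT, sOf_base, v0, (W_base c a).1, hval]
  norm_num

theorem qT1_value (c a : ℝ) : qT1 c a 64 = tailPoly1 c 64 - slope1 * a + e1T c a := by
  obtain ⟨h0, h1, -⟩ := W_base c a
  rw [qT1, sOf_base, v1, h0, h1, hval, e1T, slope1]
  simp only [rho]
  ring

theorem qT2_value (c a : ℝ) : qT2 c a 64 = tailPoly2 c 64 + slope2 * a + e2T c a := by
  obtain ⟨h0, h1, h2⟩ := W_base c a
  rw [qT2, sOf_base, v2, v1, h0, h1, h2, hval, e2T, slope2, slope1]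
  simp only [rho]
  ring

theorem abs_two_re_le {z : ℂ} {A B : ℝ} (hA : ‖z‖ ≤ A) (x : ℂ) (hB : ‖x‖ ≤ B) :
    |(-2) * (z * cres * x).re| ≤ 2 * (A * (152 / 625) * B) := by
  rw [abs_mul, show |(-2 : ℝ)| = 2 by norm_num]
  refine mul_le_mul_of_nonneg_left ((Complex.abs_re_le_norm _).trans ?_) two_pos.le
  rw [norm_mul, norm_mul]
  have hA0 : 0 ≤ A := (norm_nonneg _).trans hA
  exact mul_le_mul (mul_le_mul hA norm_cres (norm_nonneg _) hA0) hB (norm_nonneg _) (by positivity)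

theorem two_re_sub (z x x' : ℂ) :
    -2 * (z * cres * x).re - -2 * (z * cres * x').re = -2 * (z * cres * (x - x')).re := by
  simp only [mul_sub, Complex.sub_re]

theorem bvec_zero {c : ℝ} (hc : c ∈ cSet) : ‖bvec c 0‖ ≤ 1187 / 10 := by
  rw [bvec, fS, show hval 0 = 0 by simp [hval], par_eq hc]
  exact bwd_forc_zero _

theorem bvec_lip {c c' a a' : ℝ} (hc : c ∈ cSet) (hc' : c' ∈ cSet) (ha' : a' ∈ aSet) :
    ‖bvec c a - bvec c' a'‖ ≤
      3374 / 100000 * (4294967296 * |a - a'|) + 315000 * |c - c'| := by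
  have h := bwd_forc_lip ⟨c, hc⟩ ⟨c', hc'⟩ (h := hval a) (hval_mem ha')
  rw [bvec, bvec, fS, fS, par_eq hc, par_eq hc']
  have e : |hval a - hval a'| = 4294967296 * |a - a'| := by
    rw [hval, hval, ← mul_sub, abs_mul]; norm_num
  rwa [e] at h

theorem dev1_zero {c : ℝ} (hc : c ∈ cSet) : |dev1 c 0| ≤ 1217 / 10 :=
  (abs_two_re_le norm_lam_add _ (bvec_zero hc)).trans (by norm_num)

theorem dev2_zero {c : ℝ} (hc : c ∈ cSet) : |dev2 c 0| ≤ 141 :=
  (abs_two_re_le norm_lam_sq_sub _ (bvec_zero hc)).trans (by norm_num)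

theorem e1T_size {c : ℝ} (hc : c ∈ cSet) : |e1T c 0| ≤ 1 / 200000000 := by
  rw [e1T, abs_div, div_le_iff₀ (by positivity)]
  refine (dev1_zero hc).trans ?_
  norm_num

theorem e2T_size {c : ℝ} (hc : c ∈ cSet) : |e2T c 0| ≤ 1 / 200000000 := by
  have h1 := abs_le.1 (dev1_zero hc)
  have h2 := abs_le.1 (dev2_zero hc)
  rw [abs_le, e2T, le_div_iff₀ (by positivity), div_le_iff₀ (by positivity)]
  constructor <;> linarith

theorem dev_lip {c c' a a' : ℝ} (hc : c ∈ cSet) (hc' : c' ∈ cSet) (ha' : a' ∈ aSet) :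
    |dev1 c a - dev1 c' a'| ≤
      10252 / 10000 * (3374 / 100000 * (4294967296 * |a - a'|) + 315000 * |c - c'|) ∧
    |dev2 c a - dev2 c' a'| ≤
      11870 / 10000 * (3374 / 100000 * (4294967296 * |a - a'|) + 315000 * |c - c'|) := by
  have hb := bvec_lip (a := a) hc hc' ha'
  have hp : 0 ≤ 3374 / 100000 * (4294967296 * |a - a'|) + 315000 * |c - c'| := by positivity
  constructor
  · rw [dev1, dev1, two_re_sub]
    exact (abs_two_re_le norm_lam_add _ hb).trans (by linarith)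
  · rw [dev2, dev2, two_re_sub]
    exact (abs_two_re_le norm_lam_sq_sub _ hb).trans (by linarith)

theorem e1T_lip {c c' a a' : ℝ} (hc : c ∈ cSet) (hc' : c' ∈ cSet) (ha' : a' ∈ aSet) :
    |e1T c a - e1T c' a'| ≤ 1 / 100 * |a - a'| + 1 / 10000 * |c - c'| := by
  rw [e1T, e1T, ← sub_div, abs_div, div_le_iff₀ (by positivity)]
  refine (dev_lip hc hc' ha').1.trans ?_
  have := abs_nonneg (a - a')
  have := abs_nonneg (c - c')
  norm_num
  linarith

theorem e2T_lip {c c' a a' : ℝ} (hc : c ∈ cSet) (hc' : c' ∈ cSet) (ha' : a' ∈ aSet) :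
    |e2T c a - e2T c' a'| ≤ 1 / 200 * |a - a'| + 1 / 10000 * |c - c'| := by
  obtain ⟨h1, h2⟩ := dev_lip (a := a) hc hc' ha'
  obtain ⟨h1l, h1r⟩ := abs_le.1 h1
  obtain ⟨h2l, h2r⟩ := abs_le.1 h2
  have := abs_nonneg (a - a')
  have := abs_nonneg (c - c')
  rw [e2T, e2T, ← sub_div, abs_le, le_div_iff₀ (by positivity), div_le_iff₀ (by positivity)]
  constructor <;> linarith

theorem derivWithin_qT {c a y : ℝ} (hy : 64 ≤ y) :
    derivWithin (qT c a) (Ici 64) y = qT1 c a y :=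
  (qT_deriv c a (by linarith)).hasDerivWithinAt.derivWithin (uniqueDiffOn_Ici 64 y hy)

theorem derivWithin2_qT (c a : ℝ) :
    derivWithin (derivWithin (qT c a) (Ici 64)) (Ici 64) 64 = qT2 c a 64 := by
  refine HasDerivWithinAt.derivWithin ?_ (uniqueDiffOn_Ici 64 64 self_mem_Ici)
  exact (qT1_deriv c a (by norm_num)).hasDerivWithinAt.congr (fun y hy => derivWithin_qT hy)
    (derivWithin_qT le_rfl)

theorem derivs_qT (c a : ℝ) {y : ℝ} (hy : 0 < y) :
    deriv (qT c a) y = qT1 c a y ∧ deriv (deriv (qT c a)) y = qT2 c a y ∧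
    deriv (deriv (deriv (qT c a))) y = qT3 c a y := by
  have m : Ioi (0 : ℝ) ∈ 𝓝 y := Ioi_mem_nhds hy
  have e1 : deriv (qT c a) =ᶠ[𝓝 y] qT1 c a :=
    eventually_of_mem m fun t ht => (qT_deriv c a ht).deriv
  have e2 : deriv (deriv (qT c a)) =ᶠ[𝓝 y] qT2 c a :=
    e1.deriv.trans (eventually_of_mem m fun t ht => (qT1_deriv c a ht).deriv)
  exact ⟨e1.eq_of_nhds, e2.eq_of_nhds, e2.deriv_eq.trans (qT2_deriv c a hy).deriv⟩

theorem qT_ode {c a y : ℝ} (hc : c ∈ cSet) (ha : a ∈ aSet) (hy : 64 < y) :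
    ode c (qT c a) y = 0 := by
  have hy0 : 0 < y := by linarith
  obtain ⟨d1, d2, d3⟩ := derivs_qT c a hy0
  have h := qT_eqn hc ha hy.le
  rw [third, eq_div_iff hy0.ne'] at h
  rw [ode, d1, d2, d3]
  linarith

theorem qT_lim {c a : ℝ} (hc : c ∈ cSet) (ha : a ∈ aSet) : Tendsto (qT c a) atTop (𝓝 c) := by
  have h0 : Tendsto (fun y : ℝ => 246 / 1000 / y ^ 2) atTop (𝓝 0) :=
    tendsto_const_nhds.div_atTop (tendsto_pow_atTop (by norm_num))
  have h1 : Tendsto (fun y => tailPoly c y + v0 c a (sOf y)) atTop (𝓝 0) :=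
    squeeze_zero_norm' (eventually_atTop.2 ⟨64, fun y hy => u_small hc ha hy⟩) h0
  have := tendsto_const_nhds (x := c).add h1
  rw [add_zero] at this
  exact this.congr fun y => (add_assoc _ _ _).symm

theorem v_bound {c a : ℝ} (ha : a ∈ aSet) {s : ℝ} (hs : 16 ≤ s) :
    |v1 c a s| ≤ 1 ∧ |v2 c a s| ≤ 1 := by
  obtain ⟨h0, h1, h2⟩ := W_le (c := c) ha hs
  obtain ⟨h0l, h0r⟩ := abs_le.1 h0
  obtain ⟨h1l, h1r⟩ := abs_le.1 h1
  obtain ⟨h2l, h2r⟩ := abs_le.1 h2
  have hp : 0 < s := by linarith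
  have h8 : 0 < s ^ 8 := pow_pos hp 8
  have k6 : (16 : ℝ) ^ 4 * s ^ 4 ≤ s ^ 8 := by
    rw [show s ^ 8 = s ^ 4 * s ^ 4 by ring]
    exact mul_le_mul_of_nonneg_right (pow_le_pow_left₀ (by norm_num) hs 4) (by positivity)
  have k2 : 256 * s ^ 2 ≤ s ^ 4 := by nlinarith [pow_le_pow_left₀ (by norm_num : (0:ℝ) ≤ 16) hs 2]
  have k3 : 16 * s ^ 3 ≤ s ^ 4 := by nlinarith [pow_nonneg hp.le 3]
  constructor
  · rw [v1, abs_div, abs_of_pos h8, div_le_one h8, abs_le]
    constructor <;> nlinarith [mul_le_mul_of_nonneg_left h1l hp.le,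
      mul_le_mul_of_nonneg_left h1r hp.le]
  · rw [v2, abs_div, abs_of_pos h8, div_le_one h8, abs_le]
    constructor <;> nlinarith [mul_le_mul_of_nonneg_left h1l hp.le,
      mul_le_mul_of_nonneg_left h1r hp.le, mul_le_mul_of_nonneg_left h2l (sq_nonneg s),
      mul_le_mul_of_nonneg_left h2r (sq_nonneg s)]

theorem inv_pow_mono {y : ℝ} (hy : 1 ≤ y) (x : ℝ) {m n : ℕ} (hmn : m ≤ n) :
    |x / y ^ n| ≤ |x| / y ^ m := by
  rw [abs_div, abs_of_pos (pow_pos (zero_lt_one.trans_le hy) n)]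
  exact div_le_div_of_nonneg_left (abs_nonneg x) (pow_pos (zero_lt_one.trans_le hy) m)
    (pow_le_pow_right₀ hy hmn)

theorem qT_decay {c a : ℝ} (hc : c ∈ cSet) (ha : a ∈ aSet) :
    ∃ C : ℝ, ∀ y, 64 < y → |1 - qT c a y| ≤ C ∧ |deriv (qT c a) y| ≤ C / y ∧
      |deriv (deriv (qT c a)) y| ≤ C / y ^ 2 := by
  refine ⟨100000000, fun y hy => ?_⟩
  have hy0 : 0 < y := by linarith
  have hy1 : 1 ≤ y := by linarith
  obtain ⟨d1, d2, -⟩ := derivs_qT c a hy0
  obtain ⟨b1, b2⟩ := v_bound (c := c) ha (sOf_ge hy.le)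
  obtain ⟨k1, k2, k3, k4⟩ := coef_bounds hc
  refine ⟨?_, ?_, ?_⟩
  · have h := (u_small hc ha hy.le).trans (div_le_self (by norm_num) (one_le_pow₀ hy1))
    have := abs_le.1 h
    rw [qT, abs_le]
    constructor <;> linarith [hc.1, hc.2]
  · rw [d1, qT1, tailPoly1]
    have p : ∀ x : ℝ, ∀ n : ℕ, 1 ≤ n → |x / y ^ n| ≤ |x| / y := fun x n hn => by
      simpa using inv_pow_mono hy1 x hn
    have hv : |2 / (3 * y) * v1 c a (sOf y)| ≤ 1 / y := by
      rw [abs_mul, abs_div, abs_two, abs_of_pos (by positivity : (0:ℝ) < 3 * y)]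
      calc 2 / (3 * y) * |v1 c a (sOf y)| ≤ 2 / (3 * y) * 1 :=
            mul_le_mul_of_nonneg_left b1 (by positivity)
        _ ≤ 1 / y := by
            rw [mul_one, div_le_div_iff₀ (by positivity) hy0]; linarith
    refine (abs_add_le _ _).trans ?_
    rw [abs_neg]
    refine (add_le_add ((abs_add_le _ _).trans (add_le_add ((abs_add_le _ _).trans
      (add_le_add ((abs_add_le _ _).trans (add_le_add (p _ 3 (by norm_num)) (p _ 5 (by norm_num))))
        (p _ 7 (by norm_num)))) (p _ 9 (by norm_num)))) hv).trans ?_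
    rw [← add_div, ← add_div, ← add_div, ← add_div]
    refine div_le_div_of_nonneg_right ?_ hy0.le
    simp only [abs_mul, Nat.abs_ofNat]
    linarith
  · rw [d2, qT2, tailPoly2]
    have p : ∀ x : ℝ, ∀ n : ℕ, 2 ≤ n → |x / y ^ n| ≤ |x| / y ^ 2 := fun x n hn =>
      inv_pow_mono hy1 x hn
    have hv : |(4 * v2 c a (sOf y) - 6 * v1 c a (sOf y)) / (9 * y ^ 2)| ≤ 2 / y ^ 2 := by
      rw [abs_div, abs_of_pos (by positivity : (0:ℝ) < 9 * y ^ 2),
        div_le_div_iff₀ (by positivity) (by positivity)]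
      have hnum : |4 * v2 c a (sOf y) - 6 * v1 c a (sOf y)| ≤ 10 :=
        (abs_sub _ _).trans (by simp only [abs_mul, Nat.abs_ofNat]; linarith)
      nlinarith [pow_pos hy0 2]
    refine (abs_add_le _ _).trans ?_
    refine (add_le_add ((abs_add_le _ _).trans (add_le_add ((abs_add_le _ _).trans
      (add_le_add ((abs_add_le _ _).trans (add_le_add (p _ 4 (by norm_num)) (p _ 6 (by norm_num))))
        (p _ 8 (by norm_num)))) (p _ 10 (by norm_num)))) hv).trans ?_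
    rw [← add_div, ← add_div, ← add_div, ← add_div]
    refine div_le_div_of_nonneg_right ?_ (by positivity)
    simp only [abs_mul, Nat.abs_ofNat]
    linarith

/-- The tail family. -/
noncomputable def tailMap : TailMap where
  q := qT
  e1 := e1T
  e2 := e2T
  smooth _ hc _ ha := qT_smooth hc ha
  value c _ a _ := qT_value c a
  deriv_one c _ a _ := (derivWithin_qT le_rfl).trans (qT1_value c a)
  deriv_two c _ a _ := (derivWithin2_qT c a).trans (qT2_value c a)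
  eqn _ hc _ ha _ hy := qT_ode hc ha hy
  lower _ hc _ ha _ hy := qT_lower hc ha hy
  lim _ hc _ ha := qT_lim hc ha
  decay _ hc _ ha := qT_decay hc ha
  e1_size _ hc := e1T_size hc
  e2_size _ hc := e2T_size hc
  e1_lip _ hc _ hc' _ _ _ ha' := e1T_lip hc hc' ha'
  e2_lip _ hc _ hc' _ _ _ ha' := e2T_lip hc hc' ha'

end Vale.Agent.P264.Soliton.Tail
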